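/-
S0170 team project (architect: helper26).  Shared definitions.  DO NOT EDIT without telling helper26.
-/
import Crest.Prelude.Def_BoxFlow

set_option autoImplicit false
open scoped ContDiff
open Crest.AnalysisR.BoxFlow

namespace Crest.Agent.BoxFlow

/-- three-space -/
abbrev E3 : Type := Fin 3 → ℝ
/-- space-time -/
abbrev ST : Type := ℝ × (Fin 3 → ℝ)

/-! ### Computable families of reals -/

/-- `CReal f`: the family of reals `f a` (`a` ranging over a `Primcodable` type) is uniformly
computable: one computable function returns rational approximations within `1/(n+1)`. -/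
def CReal {α : Type} [Primcodable α] (f : α → ℝ) : Prop :=
  ∃ g : α → ℕ → ℚ, Computable₂ g ∧ ∀ a n, |f a - (g a n : ℝ)| ≤ 1 / ((n : ℝ) + 1)

/-- One-variable effective smooth function: smooth, all iterated derivatives uniformly computable at
rational points, and globally bounded by a computable sequence. -/
structure Eff1 (g : ℝ → ℝ) : Prop where
  smooth : ContDiff ℝ ∞ g
  approx : CReal (fun p : ℕ × ℚ => iteratedDeriv p.1 g (p.2 : ℝ))
  bound : ∃ B : ℕ → ℕ, Computable B ∧ ∀ m x, |iteratedDeriv m g x| ≤ (B m : ℝ)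

/-- The four coordinates of a space-time point (0 = time). -/
def coord (p : ST) : Fin 4 → ℝ := Fin.cons p.1 p.2

/-- The four coordinates of a rational space-time point. -/
def coordQ (p : ℚ × (Fin 3 → ℚ)) : Fin 4 → ℚ := Fin.cons p.1 p.2

/-- Separable (product) function of the four space-time coordinates. -/
def sep (g : Fin 4 → ℝ → ℝ) (p : ST) : ℝ := ∏ d : Fin 4, g d (coord p d)

/-- Scalar version of the Prelude's `mixedDeriv`. -/
noncomputable def mixedDerivS : List (Fin 4) → (ST → ℝ) → (ST → ℝ)
  | [], f => f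
  | d :: ds, f => fun p => fderiv ℝ (mixedDerivS ds f) p (direction d)

/-- Scalar effective function on space-time. -/
structure EffS (f : ST → ℝ) : Prop where
  smooth : ContDiff ℝ ∞ f
  approx : CReal (fun a : List (Fin 4) × (ℚ × (Fin 3 → ℚ)) =>
    mixedDerivS a.1 f ((a.2.1 : ℝ), ratPoint a.2.2))
  bound : ∃ B : List (Fin 4) → ℕ, Computable B ∧ ∀ ds p, |mixedDerivS ds f p| ≤ (B ds : ℝ)

/-! ### One-variable building blocks -/

/-- `σ(α s + β)` with `σ = Real.smoothTransition`, rational `α β`. -/
noncomputable def sigAff (α β : ℚ) (s : ℝ) : ℝ := Real.smoothTransition ((α : ℝ) * s + (β : ℝ))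

/-- Cut-off: `0` for `s ≤ lo - 2w`, `1` on `[lo - w, hi + w]`, `0` for `s ≥ hi + 2w`. -/
noncomputable def cutoff (lo hi w : ℚ) (s : ℝ) : ℝ :=
  sigAff (1 / w) (-(lo - 2 * w) / w) s - sigAff (1 / w) (-(hi + w) / w) s

/-- `F(s) χ(s)` with `F(s) = α s + β s²/2` (so `F' = α + β s`). -/
noncomputable def polyCut (α β lo hi w : ℚ) (s : ℝ) : ℝ :=
  ((α : ℝ) * s + (β : ℝ) / 2 * s ^ 2) * cutoff lo hi w s

/-- Time profile of stage `k` out of `K`: `0` for `t ≤ 1/4 + k/(2K)`, `1` for `t ≥ 1/4 + (k+1)/(2K)`. -/
noncomputable def timeStep (K k : ℕ) : ℝ → ℝ := sigAff (2 * K) (-(K : ℚ) / 2 - k)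

/-! ### Moves -/

/-- An elementary move: the affine shear/translation `x ↦ x + (α + β x_l) e_j` (`j ≠ l`), cut off
outside the box `[lo - 2w, hi + 2w]`, exact on `[lo - w, hi + w]`. -/
structure Move where
  j : Fin 3
  l : Fin 3
  hjl : j ≠ l
  α : ℚ
  β : ℚ
  lo : Fin 3 → ℚ
  hi : Fin 3 → ℚ
  w : ℚ
  hw : 0 < w
  hlh : ∀ i, lo i ≤ hi i

namespace Move

/-- displacement (= velocity) of the move at `x`. -/
noncomputable def shift (m : Move) (x : E3) : E3 := Pi.single m.j ((m.α : ℝ) + (m.β : ℝ) * x m.l)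

/-- region where the stage field is exactly the affine field -/
def core (m : Move) : Set E3 := {x | ∀ i, (m.lo i : ℝ) ≤ x i ∧ x i ≤ (m.hi i : ℝ)}

/-- region (strictly outside the support box) where the stage field vanishes -/
def outside (m : Move) : Set E3 :=
  {x | ∃ i, x i < (m.lo i : ℝ) - 2 * (m.w : ℝ) ∨ (m.hi i : ℝ) + 2 * (m.w : ℝ) < x i}

/-- the 1D factors of the stream function `Ψ(x) = ∏ i, base i (x i)` -/
noncomputable def base (m : Move) (i : Fin 3) : ℝ → ℝ :=
  if i = m.l then polyCut m.α m.β (m.lo i) (m.hi i) m.w else cutoff (m.lo i) (m.hi i) m.w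

/-- the 1D factors of `∂_e Ψ` -/
noncomputable def dfac (m : Move) (e i : Fin 3) : ℝ → ℝ :=
  if i = e then deriv (m.base i) else m.base i

/-- `∂_e Ψ` -/
noncomputable def dPsi (m : Move) (e : Fin 3) (x : E3) : ℝ := ∏ i, m.dfac e i (x i)

/-- The autonomous divergence-free stage field `W = (∂_l Ψ) e_j - (∂_j Ψ) e_l`. -/
noncomputable def W (m : Move) (x : E3) : E3 :=
  fun i => if i = m.j then m.dPsi m.l x else if i = m.l then - m.dPsi m.j x else 0

end Move

/-- The field `∑_{k' ≥ k} θ_{k'}(t) W_{k'}(x)` of a list of moves occupying stages `k, k+1, …` of `K`. -/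
noncomputable def fieldAux (K : ℕ) : ℕ → List Move → Field
  | _, [] => fun _ => 0
  | k, m :: Ms => fun p => deriv (timeStep K k) p.1 • m.W p.2 + fieldAux K (k + 1) Ms p

/-- The velocity field realising a list of moves. -/
noncomputable def fieldOf (Ms : List Move) : Field := fieldAux Ms.length 0 Ms

/-! ### Plans -/

section plans
variable {ι : Type} [DecidableEq ι]

/-- The state after letting body `a` perform move `m`. -/
noncomputable def stepPos (pos : ι → E3 → E3) (m : Move) (a : ι) : ι → E3 → E3 :=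
  fun i x => if i = a then pos i x + m.shift (pos i x) else pos i x

/-- Move `m` performed by body `a` is admissible in state `pos` (bodies are `pos i '' B i`). -/
def StepOK (B : ι → Set E3) (pos : ι → E3 → E3) (m : Move) (a : ι) : Prop :=
  (∀ x ∈ B a, ∀ τ ∈ Set.Icc (0 : ℝ) 1, pos a x + τ • m.shift (pos a x) ∈ m.core) ∧
  (∀ i, i ≠ a → ∀ x ∈ B i, pos i x ∈ m.outside)

/-- final state of a plan -/
noncomputable def runPlan (pos : ι → E3 → E3) : List (Move × ι) → (ι → E3 → E3)
  | [] => pos
  | ma :: L => runPlan (stepPos pos ma.1 ma.2) L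

/-- admissibility of a plan -/
def PlanOK (B : ι → Set E3) (pos : ι → E3 → E3) : List (Move × ι) → Prop
  | [] => True
  | ma :: L => StepOK B pos ma.1 ma.2 ∧ PlanOK B (stepPos pos ma.1 ma.2) L

/-- `pos'` is reachable from `pos` (equality of states only matters on the bodies). -/
def Reach (B : ι → Set E3) (pos pos' : ι → E3 → E3) : Prop :=
  ∃ L : List (Move × ι), PlanOK B pos L ∧ ∀ i, ∀ x ∈ B i, runPlan pos L i x = pos' i x

end plans

/-- closed box with rational centre and half-widths (same as the Prelude's `box`) and its open version -/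
def openBox (c h : Fin 3 → ℚ) : Set E3 := {x | ∀ j : Fin 3, |x j - (c j : ℝ)| < (h j : ℝ)}

/-- A "box state": body `i` (source box centre `a i`, half-widths `h i`) sits as the axis-parallel box
with centre `c i` and half-widths `r i`, via the diagonal affine map. -/
noncomputable def boxPos {n : ℕ} (a h c r : Fin n → Fin 3 → ℚ) : Fin n → E3 → E3 :=
  fun i x j => (c i j : ℝ) + ((r i j / h i j : ℚ) : ℝ) * (x j - (a i j : ℝ))

end Crest.Agent.BoxFlow
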