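/-
S0170 team project, task T8a: elementary facts on the 1D blocks (`cutoff`, `polyCut`, `timeStep`)
and the values of the stage field `Move.W` on the core / outside the support.  Pure real analysis,
no computability.
-/
import Crest.Agent.BoxFlow.Defs

set_option autoImplicit false
open scoped ContDiff

namespace Crest.Agent.BoxFlow

theorem contDiff_sigAff (α β : ℚ) : ContDiff ℝ ∞ (sigAff α β) := by
  unfold sigAff
  exact Real.smoothTransition.contDiff.comp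
    ((contDiff_const.mul contDiff_id).add contDiff_const)

theorem contDiff_cutoff (lo hi w : ℚ) : ContDiff ℝ ∞ (cutoff lo hi w) := by
  unfold cutoff
  exact (contDiff_sigAff _ _).sub (contDiff_sigAff _ _)

theorem contDiff_polyCut (α β lo hi w : ℚ) : ContDiff ℝ ∞ (polyCut α β lo hi w) := by
  unfold polyCut
  exact ((contDiff_const.mul contDiff_id).add (contDiff_const.mul (contDiff_id.pow 2))).mul
    (contDiff_cutoff lo hi w)

theorem t8a_sigAff_eq_zero {α β : ℚ} {s : ℝ} (h : (α : ℝ) * s + (β : ℝ) ≤ 0) :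
    sigAff α β s = 0 :=
  Real.smoothTransition.zero_of_nonpos h

theorem t8a_sigAff_eq_one {α β : ℚ} {s : ℝ} (h : 1 ≤ (α : ℝ) * s + (β : ℝ)) :
    sigAff α β s = 1 :=
  Real.smoothTransition.one_of_one_le h

theorem t8a_arg1 {lo w : ℚ} (hw : 0 < w) (s : ℝ) :
    (((1 / w : ℚ) : ℝ)) * s + ((-(lo - 2 * w) / w : ℚ) : ℝ) = (s - ((lo : ℝ) - 2 * w)) / w := by
  have hw' : (w : ℝ) ≠ 0 := by exact_mod_cast hw.ne'
  push_cast
  field_simp
  ring

theorem t8a_arg2 {hi w : ℚ} (hw : 0 < w) (s : ℝ) :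
    (((1 / w : ℚ) : ℝ)) * s + ((-(hi + w) / w : ℚ) : ℝ) = (s - ((hi : ℝ) + w)) / w := by
  have hw' : (w : ℝ) ≠ 0 := by exact_mod_cast hw.ne'
  push_cast
  field_simp
  ring

theorem cutoff_eq_one {lo hi w : ℚ} (hw : 0 < w) (hlh : lo ≤ hi) {s : ℝ}
    (h1 : (lo : ℝ) - w ≤ s) (h2 : s ≤ (hi : ℝ) + w) : cutoff lo hi w s = 1 := by
  have hw' : (0 : ℝ) < w := by exact_mod_cast hw
  unfold cutoff
  rw [t8a_sigAff_eq_one, t8a_sigAff_eq_zero]
  · ring
  · rw [t8a_arg2 hw]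
    exact div_nonpos_of_nonpos_of_nonneg (by linarith) hw'.le
  · rw [t8a_arg1 hw, le_div_iff₀ hw']
    linarith

theorem cutoff_eq_zero_left {lo hi w : ℚ} (hw : 0 < w) (hlh : lo ≤ hi) {s : ℝ}
    (h : s ≤ (lo : ℝ) - 2 * w) : cutoff lo hi w s = 0 := by
  have hw' : (0 : ℝ) < w := by exact_mod_cast hw
  have hlh' : (lo : ℝ) ≤ hi := by exact_mod_cast hlh
  unfold cutoff
  rw [t8a_sigAff_eq_zero, t8a_sigAff_eq_zero]
  · ring
  · rw [t8a_arg2 hw]
    exact div_nonpos_of_nonpos_of_nonneg (by linarith) hw'.le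
  · rw [t8a_arg1 hw]
    exact div_nonpos_of_nonpos_of_nonneg (by linarith) hw'.le

theorem cutoff_eq_zero_right {lo hi w : ℚ} (hw : 0 < w) (hlh : lo ≤ hi) {s : ℝ}
    (h : (hi : ℝ) + 2 * w ≤ s) : cutoff lo hi w s = 0 := by
  have hw' : (0 : ℝ) < w := by exact_mod_cast hw
  have hlh' : (lo : ℝ) ≤ hi := by exact_mod_cast hlh
  unfold cutoff
  rw [t8a_sigAff_eq_one, t8a_sigAff_eq_one]
  · ring
  · rw [t8a_arg2 hw, le_div_iff₀ hw']
    linarith
  · rw [t8a_arg1 hw, le_div_iff₀ hw']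
    linarith

/-! time profiles -/

theorem t8a_time_arg (K k : ℕ) (t : ℝ) :
    (((2 * K : ℚ)) : ℝ) * t + ((-(K : ℚ) / 2 - k : ℚ) : ℝ) = 2 * K * t - K / 2 - k := by
  push_cast
  ring

theorem timeStep_eq_zero {K k : ℕ} (hK : 0 < K) {t : ℝ} (ht : t ≤ 1 / 4 + (k : ℝ) / (2 * K)) :
    timeStep K k t = 0 := by
  have hK' : (0 : ℝ) < K := by exact_mod_cast hK
  unfold timeStep
  apply t8a_sigAff_eq_zero
  rw [t8a_time_arg]
  have h := mul_le_mul_of_nonneg_left ht (by positivity : (0 : ℝ) ≤ 2 * K)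
  have e : 2 * (K : ℝ) * (1 / 4 + (k : ℝ) / (2 * K)) = K / 2 + k := by
    field_simp
    ring
  rw [e] at h
  linarith

theorem timeStep_eq_one {K k : ℕ} (hK : 0 < K) {t : ℝ} (ht : 1 / 4 + ((k : ℝ) + 1) / (2 * K) ≤ t) :
    timeStep K k t = 1 := by
  have hK' : (0 : ℝ) < K := by exact_mod_cast hK
  unfold timeStep
  apply t8a_sigAff_eq_one
  rw [t8a_time_arg]
  have h := mul_le_mul_of_nonneg_left ht (by positivity : (0 : ℝ) ≤ 2 * K)
  have e : 2 * (K : ℝ) * (1 / 4 + ((k : ℝ) + 1) / (2 * K)) = K / 2 + k + 1 := by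
    field_simp
    ring
  rw [e] at h
  linarith

theorem timeStep_mem_Icc (K k : ℕ) (t : ℝ) : timeStep K k t ∈ Set.Icc (0 : ℝ) 1 :=
  ⟨Real.smoothTransition.nonneg _, Real.smoothTransition.le_one _⟩

theorem deriv_timeStep_eq_zero {K k : ℕ} (hK : 0 < K) {t : ℝ}
    (ht : t < 1 / 4 + (k : ℝ) / (2 * K) ∨ 1 / 4 + ((k : ℝ) + 1) / (2 * K) < t) :
    deriv (timeStep K k) t = 0 := by
  rcases ht with ht | ht
  · have : timeStep K k =ᶠ[nhds t] fun _ => (0 : ℝ) := by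
      filter_upwards [Iio_mem_nhds ht] with s hs
      exact timeStep_eq_zero hK (le_of_lt hs)
    rw [this.deriv_eq]
    simp
  · have : timeStep K k =ᶠ[nhds t] fun _ => (1 : ℝ) := by
      filter_upwards [Ioi_mem_nhds ht] with s hs
      exact timeStep_eq_one hK (le_of_lt hs)
    rw [this.deriv_eq]
    simp

/-! stage field -/

theorem Move.contDiff_base (m : Move) (i : Fin 3) : ContDiff ℝ ∞ (m.base i) := by
  unfold Move.base
  split_ifs
  · exact contDiff_polyCut _ _ _ _ _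
  · exact contDiff_cutoff _ _ _

theorem Move.contDiff_dfac (m : Move) (e i : Fin 3) : ContDiff ℝ ∞ (m.dfac e i) := by
  unfold Move.dfac
  split_ifs
  · exact (contDiff_infty_iff_deriv.mp (m.contDiff_base i)).2
  · exact m.contDiff_base i

theorem Move.t8a_base_eq_zero (m : Move) (i : Fin 3) {s : ℝ}
    (hs : s < (m.lo i : ℝ) - 2 * m.w ∨ (m.hi i : ℝ) + 2 * m.w < s) : m.base i s = 0 := by
  have hc : cutoff (m.lo i) (m.hi i) m.w s = 0 := by
    rcases hs with hs | hs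
    · exact cutoff_eq_zero_left m.hw (m.hlh i) hs.le
    · exact cutoff_eq_zero_right m.hw (m.hlh i) hs.le
  unfold Move.base
  split_ifs
  · unfold polyCut
    rw [hc, mul_zero]
  · exact hc

/-- every factor `dfac e i` vanishes outside `[lo i - 2w, hi i + 2w]` -/
theorem Move.dfac_eq_zero (m : Move) (e i : Fin 3) {s : ℝ}
    (hs : s < (m.lo i : ℝ) - 2 * m.w ∨ (m.hi i : ℝ) + 2 * m.w < s) : m.dfac e i s = 0 := by
  unfold Move.dfac
  split_ifs
  · have : m.base i =ᶠ[nhds s] fun _ => (0 : ℝ) := by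
      rcases hs with hs | hs
      · filter_upwards [Iio_mem_nhds hs] with r hr
        exact m.t8a_base_eq_zero i (Or.inl hr)
      · filter_upwards [Ioi_mem_nhds hs] with r hr
        exact m.t8a_base_eq_zero i (Or.inr hr)
    rw [this.deriv_eq]
    simp
  · exact m.t8a_base_eq_zero i hs

theorem Move.t8a_cutoff_eventually_one (m : Move) (i : Fin 3) {s : ℝ}
    (h1 : (m.lo i : ℝ) ≤ s) (h2 : s ≤ (m.hi i : ℝ)) :
    cutoff (m.lo i) (m.hi i) m.w =ᶠ[nhds s] fun _ => (1 : ℝ) := by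
  have hw' : (0 : ℝ) < m.w := by exact_mod_cast m.hw
  have hI : Set.Ioo ((m.lo i : ℝ) - m.w) ((m.hi i : ℝ) + m.w) ∈ nhds s :=
    Ioo_mem_nhds (by linarith) (by linarith)
  filter_upwards [hI] with r hr
  exact cutoff_eq_one m.hw (m.hlh i) hr.1.le hr.2.le

theorem Move.t8a_dfac_core_ne (m : Move) {e i : Fin 3} (hie : i ≠ e) (hil : i ≠ m.l) {s : ℝ}
    (h1 : (m.lo i : ℝ) ≤ s) (h2 : s ≤ (m.hi i : ℝ)) : m.dfac e i s = 1 := by
  have hw' : (0 : ℝ) < m.w := by exact_mod_cast m.hw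
  unfold Move.dfac Move.base
  rw [if_neg hie, if_neg hil]
  exact cutoff_eq_one m.hw (m.hlh i) (by linarith) (by linarith)

theorem Move.t8a_dfac_core_deriv_cut (m : Move) {i : Fin 3} (hil : i ≠ m.l) {s : ℝ}
    (h1 : (m.lo i : ℝ) ≤ s) (h2 : s ≤ (m.hi i : ℝ)) : m.dfac i i s = 0 := by
  unfold Move.dfac Move.base
  rw [if_pos rfl, if_neg hil, (m.t8a_cutoff_eventually_one i h1 h2).deriv_eq]
  simp

theorem Move.t8a_dfac_core_deriv_poly (m : Move) {s : ℝ}
    (h1 : (m.lo m.l : ℝ) ≤ s) (h2 : s ≤ (m.hi m.l : ℝ)) :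
    m.dfac m.l m.l s = (m.α : ℝ) + (m.β : ℝ) * s := by
  unfold Move.dfac Move.base
  rw [if_pos rfl, if_pos rfl]
  have : polyCut m.α m.β (m.lo m.l) (m.hi m.l) m.w =ᶠ[nhds s]
      fun r => (m.α : ℝ) * r + (m.β : ℝ) / 2 * r ^ 2 := by
    filter_upwards [m.t8a_cutoff_eventually_one m.l h1 h2] with r hr
    unfold polyCut
    rw [hr, mul_one]
  rw [this.deriv_eq]
  have hd : HasDerivAt (fun r : ℝ => (m.α : ℝ) * r + (m.β : ℝ) / 2 * r ^ 2)
      ((m.α : ℝ) * 1 + (m.β : ℝ) / 2 * ((2 : ℕ) * s ^ (2 - 1) * 1)) s :=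
    ((hasDerivAt_id s).const_mul _).add (((hasDerivAt_id s).pow 2).const_mul _)
  rw [hd.deriv]
  simp
  ring

theorem Move.t8a_dPsi_l_core (m : Move) {x : E3} (hx : x ∈ m.core) :
    m.dPsi m.l x = (m.α : ℝ) + (m.β : ℝ) * x m.l := by
  unfold Move.dPsi
  rw [Finset.prod_eq_single m.l]
  · exact m.t8a_dfac_core_deriv_poly (hx m.l).1 (hx m.l).2
  · intro i _ hi
    exact m.t8a_dfac_core_ne hi hi (hx i).1 (hx i).2
  · intro h
    exact absurd (Finset.mem_univ _) h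

theorem Move.t8a_dPsi_j_core (m : Move) {x : E3} (hx : x ∈ m.core) : m.dPsi m.j x = 0 := by
  unfold Move.dPsi
  exact Finset.prod_eq_zero (Finset.mem_univ m.j)
    (m.t8a_dfac_core_deriv_cut m.hjl (hx m.j).1 (hx m.j).2)

theorem Move.W_of_mem_core (m : Move) {x : E3} (hx : x ∈ m.core) : m.W x = m.shift x := by
  funext i
  unfold Move.W Move.shift
  by_cases hij : i = m.j
  · subst hij
    rw [if_pos rfl, Pi.single_eq_same]
    exact m.t8a_dPsi_l_core hx
  · rw [if_neg hij, Pi.single_eq_of_ne hij]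
    split_ifs
    · rw [m.t8a_dPsi_j_core hx, neg_zero]
    · rfl

theorem Move.t8a_dPsi_outside (m : Move) (e : Fin 3) {x : E3} (hx : x ∈ m.outside) :
    m.dPsi e x = 0 := by
  obtain ⟨i, hi⟩ := hx
  unfold Move.dPsi
  exact Finset.prod_eq_zero (Finset.mem_univ i) (m.dfac_eq_zero e i hi)

theorem Move.W_of_mem_outside (m : Move) {x : E3} (hx : x ∈ m.outside) : m.W x = 0 := by
  funext i
  unfold Move.W
  rw [m.t8a_dPsi_outside m.l hx, m.t8a_dPsi_outside m.j hx]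
  simp

end Crest.Agent.BoxFlow
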