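/-
S0170 team project, task T1: computability of arithmetic on ℚ (w.r.t. Mathlib's `Primcodable ℚ`,
which comes from `Denumerable ℚ = ofEncodableOfInfinite`), plus a few ℕ-functions.
Only the statements below are the interface; add any auxiliary lemmas you like (same namespace).
The real work is in `Crest/Agent/Lib_helper67_RatComp.lean` (namespace `Crest.Agent.RatComp`), which also
offers all operations in "composition form" (`RatComp.rat_add hf hg : Computable fun a => f a + g a`, ...).
-/
import Crest.Agent.BoxFlow.Defs
import Crest.Agent.Lib_helper67_RatComp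

set_option autoImplicit false

namespace Crest.Agent.BoxFlow

open Crest.Agent.RatComp

/-! ### core: ℚ ↔ (numerator, denominator) -/

theorem t1_natAbs_eq (q : ℚ) : q.num.natAbs = ratP q + ratM q := by
  unfold ratP ratM; omega

theorem t1_neg_iff (q : ℚ) : q < 0 ↔ 0 < ratM q := by
  unfold ratM
  rw [← Rat.num_neg]; omega

/-- decoding a rational into sign / |numerator| / denominator is computable -/
theorem comp_rat_parts : Computable (fun q : ℚ => (decide (q < 0), q.num.natAbs, q.den)) := by
  have h1 : Computable (fun q : ℚ => decide (q < 0)) :=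
    rat_lt_decide Computable.id (Computable.const 0)
  have h2 : Computable (fun q : ℚ => q.num.natAbs) :=
    (nat_add computable_ratP computable_ratM).of_eq fun q => (t1_natAbs_eq q).symm
  exact h1.pair (h2.pair computable_ratD)

/-- building a rational `± a / d` is computable -/
theorem comp_rat_mk : Computable (fun p : Bool × ℕ × ℕ =>
    (if p.1 then -((p.2.1 : ℚ) / (p.2.2 : ℚ)) else (p.2.1 : ℚ) / (p.2.2 : ℚ))) := by
  have ha : Computable (fun p : Bool × ℕ × ℕ => ((p.2.1 : ℕ) : ℚ)) :=
    rat_natCast (Computable.fst.comp Computable.snd)
  have hd : Computable (fun p : Bool × ℕ × ℕ => ((p.2.2 : ℕ) : ℚ)) :=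
    rat_natCast (Computable.snd.comp Computable.snd)
  have hq := rat_div ha hd
  refine (Computable.cond Computable.fst (rat_neg hq) hq).of_eq fun p => ?_
  cases p.1 <;> simp

/-! ### operations -/

theorem comp_rat_add : Computable₂ (fun a b : ℚ => a + b) := rat_add Computable.fst Computable.snd
theorem comp_rat_mul : Computable₂ (fun a b : ℚ => a * b) := rat_mul Computable.fst Computable.snd
theorem comp_rat_neg : Computable (fun a : ℚ => -a) := rat_neg Computable.id
theorem comp_rat_sub : Computable₂ (fun a b : ℚ => a - b) := rat_sub Computable.fst Computable.snd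
theorem comp_rat_inv : Computable (fun a : ℚ => a⁻¹) := rat_inv Computable.id
theorem comp_rat_div : Computable₂ (fun a b : ℚ => a / b) := rat_div Computable.fst Computable.snd
theorem comp_rat_abs : Computable (fun a : ℚ => |a|) := rat_abs Computable.id
theorem comp_rat_max : Computable₂ (fun a b : ℚ => max a b) := rat_max Computable.fst Computable.snd
theorem comp_rat_natCast : Computable (fun n : ℕ => (n : ℚ)) := rat_natCast Computable.id
theorem comp_rat_le : Computable₂ (fun a b : ℚ => decide (a ≤ b)) :=
  rat_le_decide Computable.fst Computable.snd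
theorem comp_rat_lt : Computable₂ (fun a b : ℚ => decide (a < b)) :=
  rat_lt_decide Computable.fst Computable.snd
/-- a computable natural upper bound of `|a|` (note `|a| ≤ a.num.natAbs`) -/
theorem comp_rat_natAbs : Computable (fun a : ℚ => a.num.natAbs) :=
  (nat_add computable_ratP computable_ratM).of_eq fun q => (t1_natAbs_eq q).symm
theorem comp_rat_pow : Computable₂ (fun (a : ℚ) (n : ℕ) => a ^ n) :=
  rat_pow Computable.fst Computable.snd

theorem rat_abs_le_natAbs (a : ℚ) : |(a : ℝ)| ≤ (a.num.natAbs : ℝ) := by
  have := abs_le_ratUB_real a
  rwa [ratUB, ← t1_natAbs_eq] at this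

/-! ### ℕ-functions -/

theorem comp_nat_add : Computable₂ (fun a b : ℕ => a + b) := Primrec.nat_add.to_comp
theorem comp_nat_mul : Computable₂ (fun a b : ℕ => a * b) := Primrec.nat_mul.to_comp
theorem comp_nat_pow : Computable₂ (fun a b : ℕ => a ^ b) := nat_pow Computable.fst Computable.snd
theorem comp_nat_factorial : Computable (fun n : ℕ => n.factorial) := nat_factorial Computable.id
theorem comp_nat_choose : Computable₂ (fun n k : ℕ => n.choose k) :=
  nat_choose Computable.fst Computable.snd

/-! ### finite sums -/

theorem comp_rat_sum_range {α : Type} [Primcodable α] {f : α → ℕ → ℚ} (hf : Computable₂ f)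
    {m : α → ℕ} (hm : Computable m) :
    Computable (fun a => ∑ i ∈ Finset.range (m a), f a i) :=
  rat_sum_range hm hf

theorem comp_nat_sum_range {α : Type} [Primcodable α] {f : α → ℕ → ℕ} (hf : Computable₂ f)
    {m : α → ℕ} (hm : Computable m) :
    Computable (fun a => ∑ i ∈ Finset.range (m a), f a i) :=
  nat_sum_range hm hf

/-- functions into `Fin k → σ` are computable as soon as all components are -/
theorem comp_fin_arrow {α σ : Type} [Primcodable α] [Primcodable σ] {k : ℕ} {f : α → Fin k → σ}
    (hf : ∀ j, Computable (fun a => f a j)) : Computable f :=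
  computable_pi hf

/-- evaluation of a `Fin k → σ` at a fixed index is computable -/
theorem comp_fin_eval {σ : Type} [Primcodable σ] {k : ℕ} (j : Fin k) :
    Computable (fun v : Fin k → σ => v j) :=
  computable_app Computable.id j

theorem comp_list_count {k : ℕ} (d : Fin k) : Computable (fun l : List (Fin k) => l.count d) :=
  list_count Computable.id d

end Crest.Agent.BoxFlow
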