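/-
S0170 team project, task T2: closure properties of `CReal` (uniformly computable families of reals).
Uses only the *statements* of RatComp.  Interface = the statements below.
-/
import Crest.Agent.BoxFlow.RatComp

set_option autoImplicit false

namespace Crest.Agent.BoxFlow

variable {α β : Type} [Primcodable α] [Primcodable β]

theorem CReal.of_rat {q : α → ℚ} (hq : Computable q) : CReal (fun a => (q a : ℝ)) := by
  refine ⟨fun a _ => q a, hq.comp Computable.fst, fun a n => ?_⟩
  simp only [sub_self, abs_zero]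
  positivity

theorem CReal.congr {f g : α → ℝ} (hf : CReal f) (h : ∀ a, f a = g a) : CReal g := by
  have : f = g := funext h
  exact this ▸ hf

theorem CReal.comp {f : β → ℝ} (hf : CReal f) {h : α → β} (hh : Computable h) :
    CReal (fun a => f (h a)) := by
  obtain ⟨g, hg, hgf⟩ := hf
  refine ⟨fun a n => g (h a) n, ?_, fun a n => hgf (h a) n⟩
  exact hg.comp (hh.comp Computable.fst) Computable.snd

/-- a computable natural bound -/
theorem CReal.exists_bound {f : α → ℝ} (hf : CReal f) :
    ∃ b : α → ℕ, Computable b ∧ ∀ a, |f a| ≤ (b a : ℝ) := by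
  obtain ⟨g, hg, hgf⟩ := hf
  refine ⟨fun a => (g a 0).num.natAbs + 1, ?_, fun a => ?_⟩
  · have h1 : Computable (fun a => g a 0) := hg.comp Computable.id (Computable.const 0)
    have h2 : Computable (fun a => (g a 0).num.natAbs) := comp_rat_natAbs.comp h1
    exact Computable.succ.comp h2
  · have h1 := hgf a 0
    have h2 := rat_abs_le_natAbs (g a 0)
    simp only [Nat.cast_zero, zero_add, div_one] at h1
    have h3 : |f a| ≤ |f a - (g a 0 : ℝ)| + |(g a 0 : ℝ)| := by
      have := abs_add_le (f a - (g a 0 : ℝ)) (g a 0 : ℝ)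
      simpa using this
    push_cast
    linarith

/-- change of precision: a helper -/
private theorem t2_prec {x : ℝ} {q : ℝ} {N : ℕ} (h : |x - q| ≤ 1 / ((N : ℝ) + 1)) {c : ℝ}
    (hc : 0 < c) (hN : c ≤ (N : ℝ) + 1) : |x - q| ≤ 1 / c :=
  h.trans (one_div_le_one_div_of_le hc hN)

theorem CReal.add {f g : α → ℝ} (hf : CReal f) (hg : CReal g) : CReal (fun a => f a + g a) := by
  obtain ⟨F, hF, hFf⟩ := hf
  obtain ⟨G, hG, hGg⟩ := hg
  refine ⟨fun a n => F a (2 * n + 1) + G a (2 * n + 1), ?_, fun a n => ?_⟩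
  · have hN : Computable (fun p : α × ℕ => 2 * p.2 + 1) :=
      Computable.succ.comp (comp_nat_mul.comp (Computable.const 2) Computable.snd)
    exact comp_rat_add.comp (hF.comp Computable.fst hN) (hG.comp Computable.fst hN)
  · have h1 := hFf a (2 * n + 1)
    have h2 := hGg a (2 * n + 1)
    have e : (1 : ℝ) / (((2 * n + 1 : ℕ) : ℝ) + 1) = (1 / ((n : ℝ) + 1)) / 2 := by
      push_cast
      field_simp
      ring
    rw [e] at h1 h2
    push_cast
    have h3 : f a + g a - ((F a (2 * n + 1) : ℝ) + (G a (2 * n + 1) : ℝ))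
        = (f a - (F a (2 * n + 1) : ℝ)) + (g a - (G a (2 * n + 1) : ℝ)) := by ring
    rw [h3]
    refine (abs_add_le _ _).trans ?_
    linarith

theorem CReal.neg {f : α → ℝ} (hf : CReal f) : CReal (fun a => - f a) := by
  obtain ⟨F, hF, hFf⟩ := hf
  refine ⟨fun a n => - F a n, comp_rat_neg.comp hF, fun a n => ?_⟩
  have h1 := hFf a n
  push_cast
  have h3 : - f a - - (F a n : ℝ) = - (f a - (F a n : ℝ)) := by ring
  rw [h3, abs_neg]
  exact h1

theorem CReal.sub {f g : α → ℝ} (hf : CReal f) (hg : CReal g) : CReal (fun a => f a - g a) := by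
  exact (hf.add hg.neg).congr (fun a => by ring)

theorem CReal.mul {f g : α → ℝ} (hf : CReal f) (hg : CReal g) : CReal (fun a => f a * g a) := by
  obtain ⟨bf, hbf, hbf'⟩ := hf.exists_bound
  obtain ⟨bg, hbg, hbg'⟩ := hg.exists_bound
  obtain ⟨F, hF, hFf⟩ := hf
  obtain ⟨G, hG, hGg⟩ := hg
  refine ⟨fun a n => F a ((n + 1) * (bf a + bg a + 1)) * G a ((n + 1) * (bf a + bg a + 1)),
    ?_, fun a n => ?_⟩
  · have hN : Computable (fun p : α × ℕ => (p.2 + 1) * (bf p.1 + bg p.1 + 1)) :=
      comp_nat_mul.comp (Computable.succ.comp Computable.snd)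
        (Computable.succ.comp (comp_nat_add.comp (hbf.comp Computable.fst)
          (hbg.comp Computable.fst)))
    exact comp_rat_mul.comp (hF.comp Computable.fst hN) (hG.comp Computable.fst hN)
  · set N := (n + 1) * (bf a + bg a + 1) with hNdef
    have h1 := hFf a N
    have h2 := hGg a N
    have hb1 := hbf' a
    have hb2 := hbg' a
    set c : ℝ := ((n : ℝ) + 1) * ((bf a : ℝ) + (bg a : ℝ) + 1) with hc
    have hbf0 : (0 : ℝ) ≤ bf a := Nat.cast_nonneg _
    have hbg0 : (0 : ℝ) ≤ bg a := Nat.cast_nonneg _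
    have hn0 : (0 : ℝ) ≤ n := Nat.cast_nonneg _
    have hcpos : 0 < c := by positivity
    have hNc : c ≤ (N : ℝ) + 1 := by
      rw [hNdef, hc]; push_cast; linarith
    have h1' := t2_prec h1 hcpos hNc
    have h2' := t2_prec h2 hcpos hNc
    have hc1 : 1 / c ≤ 1 := by
      rw [div_le_one hcpos, hc]
      nlinarith
    -- |G| ≤ bg + 1
    have hG1 : |(G a N : ℝ)| ≤ (bg a : ℝ) + 1 := by
      have : |(G a N : ℝ)| ≤ |g a - (G a N : ℝ)| + |g a| := by
        have := abs_sub_abs_le_abs_sub (G a N : ℝ) (g a)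
        rw [abs_sub_comm] at this
        linarith
      linarith
    push_cast
    have h3 : f a * g a - (F a N : ℝ) * (G a N : ℝ)
        = f a * (g a - (G a N : ℝ)) + (f a - (F a N : ℝ)) * (G a N : ℝ) := by ring
    rw [h3]
    refine (abs_add_le _ _).trans ?_
    rw [abs_mul, abs_mul]
    have h4 : |f a| * |g a - (G a N : ℝ)| ≤ (bf a : ℝ) * (1 / c) :=
      mul_le_mul hb1 h2' (abs_nonneg _) hbf0
    have h5 : |f a - (F a N : ℝ)| * |(G a N : ℝ)| ≤ (1 / c) * ((bg a : ℝ) + 1) :=
      mul_le_mul h1' hG1 (abs_nonneg _) (by positivity)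
    have h6 : (bf a : ℝ) * (1 / c) + (1 / c) * ((bg a : ℝ) + 1) = 1 / ((n : ℝ) + 1) := by
      rw [hc]
      field_simp
      ring
    linarith

theorem CReal.ite {p : α → Prop} [DecidablePred p] (hp : Computable (fun a => decide (p a)))
    {f g : α → ℝ} (hf : CReal f) (hg : CReal g) : CReal (fun a => if p a then f a else g a) := by
  obtain ⟨F, hF, hFf⟩ := hf
  obtain ⟨G, hG, hGg⟩ := hg
  refine ⟨fun a n => cond (decide (p a)) (F a n) (G a n), ?_, fun a n => ?_⟩
  · exact Computable.cond (hp.comp Computable.fst) hF hG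
  · by_cases h : p a
    · simpa [h] using hFf a n
    · simpa [h] using hGg a n

theorem CReal.sum_range {f : α → ℕ → ℝ} (hf : CReal (fun p : α × ℕ => f p.1 p.2))
    {m : α → ℕ} (hm : Computable m) :
    CReal (fun a => ∑ i ∈ Finset.range (m a), f a i) := by
  obtain ⟨F, hF, hFf⟩ := hf
  refine ⟨fun a n => ∑ i ∈ Finset.range (m a), F (a, i) ((n + 1) * m a), ?_, fun a n => ?_⟩
  · have h1 : Computable₂ (fun (p : α × ℕ) (i : ℕ) => F (p.1, i) ((p.2 + 1) * m p.1)) := by
      have hA : Computable (fun q : (α × ℕ) × ℕ => (q.1.1, q.2)) :=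
        Computable.pair (Computable.fst.comp Computable.fst) Computable.snd
      have hB : Computable (fun q : (α × ℕ) × ℕ => (q.1.2 + 1) * m q.1.1) :=
        comp_nat_mul.comp (Computable.succ.comp (Computable.snd.comp Computable.fst))
          (hm.comp (Computable.fst.comp Computable.fst))
      exact hF.comp hA hB
    exact comp_rat_sum_range h1 (hm.comp Computable.fst)
  · push_cast
    rw [← Finset.sum_sub_distrib]
    refine (Finset.abs_sum_le_sum_abs _ _).trans ?_
    have hn0 : (0 : ℝ) ≤ n := Nat.cast_nonneg _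
    have hm0 : (0 : ℝ) ≤ m a := Nat.cast_nonneg _
    have h1 : ∀ i ∈ Finset.range (m a), |f a i - (F (a, i) ((n + 1) * m a) : ℝ)|
        ≤ 1 / ((((n + 1) * m a : ℕ) : ℝ) + 1) := fun i _ => hFf (a, i) _
    refine (Finset.sum_le_sum h1).trans ?_
    rw [Finset.sum_const, Finset.card_range, nsmul_eq_mul]
    push_cast
    rw [mul_one_div, div_le_div_iff₀ (by positivity) (by positivity)]
    nlinarith

/-- effective limits -/
theorem CReal.of_limit {F : α → ℕ → ℝ} (hF : CReal (fun p : α × ℕ => F p.1 p.2)) {f : α → ℝ}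
    (h : ∀ a n, |f a - F a n| ≤ 1 / ((n : ℝ) + 1)) : CReal f := by
  obtain ⟨G, hG, hGF⟩ := hF
  refine ⟨fun a n => G (a, 2 * n + 1) (2 * n + 1), ?_, fun a n => ?_⟩
  · have hN : Computable (fun p : α × ℕ => 2 * p.2 + 1) :=
      Computable.succ.comp (comp_nat_mul.comp (Computable.const 2) Computable.snd)
    exact hG.comp (Computable.pair Computable.fst hN) hN
  · have h1 := h a (2 * n + 1)
    have h2 := hGF (a, 2 * n + 1) (2 * n + 1)
    have e : (1 : ℝ) / (((2 * n + 1 : ℕ) : ℝ) + 1) = (1 / ((n : ℝ) + 1)) / 2 := by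
      push_cast
      field_simp
      ring
    rw [e] at h1 h2
    have h3 : f a - (G (a, 2 * n + 1) (2 * n + 1) : ℝ)
        = (f a - F a (2 * n + 1)) + (F a (2 * n + 1) - (G (a, 2 * n + 1) (2 * n + 1) : ℝ)) := by
      ring
    rw [h3]
    refine (abs_add_le _ _).trans ?_
    simp only at h2
    linarith

theorem CReal.inv_one_add {f : α → ℝ} (hf : CReal f) (h0 : ∀ a, 0 ≤ f a) :
    CReal (fun a => 1 / (1 + f a)) := by
  obtain ⟨F, hF, hFf⟩ := hf
  refine ⟨fun a n => 1 / (1 + max (F a n) 0), ?_, fun a n => ?_⟩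
  · have h1 : Computable (fun p : α × ℕ => max (F p.1 p.2) 0) :=
      comp_rat_max.comp hF (Computable.const 0)
    have h2 : Computable (fun p : α × ℕ => 1 + max (F p.1 p.2) 0) :=
      comp_rat_add.comp (Computable.const 1) h1
    exact comp_rat_div.comp (Computable.const 1) h2
  · have h1 := hFf a n
    have hfa := h0 a
    push_cast
    set q : ℝ := max (F a n : ℝ) 0 with hq
    have hq0 : 0 ≤ q := le_max_right _ _
    have hqf : |f a - q| ≤ |f a - (F a n : ℝ)| := by
      rcases le_total (F a n : ℝ) 0 with hneg | hpos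
      · have : q = 0 := max_eq_right hneg
        rw [this, sub_zero, abs_of_nonneg hfa, abs_of_nonneg (by linarith)]
        linarith
      · have : q = (F a n : ℝ) := max_eq_left hpos
        rw [this]
    have e : 1 / (1 + f a) - 1 / (1 + q) = (q - f a) / ((1 + f a) * (1 + q)) := by
      field_simp
      ring
    rw [e, abs_div, abs_sub_comm]
    have hden : 1 ≤ |(1 + f a) * (1 + q)| := by
      rw [abs_of_nonneg (by positivity)]
      nlinarith
    calc |f a - q| / |(1 + f a) * (1 + q)| ≤ |f a - q| / 1 :=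
          div_le_div_of_nonneg_left (abs_nonneg _) one_pos hden
      _ = |f a - q| := div_one _
      _ ≤ _ := hqf.trans h1

theorem CReal.prod_fin {k : ℕ} {f : Fin k → α → ℝ} (hf : ∀ d, CReal (f d)) :
    CReal (fun a => ∏ d, f d a) := by
  induction k with
  | zero =>
    have : CReal (fun _ : α => ((1 : ℚ) : ℝ)) := CReal.of_rat (Computable.const 1)
    exact this.congr (fun a => by simp)
  | succ k ih =>
    have h1 : CReal (fun a => ∏ d : Fin k, f d.succ a) := ih (fun d => hf d.succ)
    exact ((hf 0).mul h1).congr (fun a => by rw [Fin.prod_univ_succ])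

end Crest.Agent.BoxFlow
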