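/-
S0170 team project, task T3: `exp` and `Real.smoothTransition` are computable at rational points.
-/
import Crest.Agent.BoxFlow.CRealLib

set_option autoImplicit false

namespace Crest.Agent.BoxFlow

/-- real version of `Complex.exp_bound'` -/
theorem t3_real_exp_bound {x : ℝ} {n : ℕ} (hx : |x| / n.succ ≤ 1 / 2) :
    |Real.exp x - ∑ m ∈ Finset.range n, x ^ m / m.factorial| ≤ |x| ^ n / n.factorial * 2 := by
  have hxc : ‖(x : ℂ)‖ / n.succ ≤ 1 / 2 := by
    rw [Complex.norm_real, Real.norm_eq_abs]; exact hx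
  have h := Complex.exp_bound' hxc
  rw [Complex.norm_real, Real.norm_eq_abs] at h
  have e : Complex.exp (x : ℂ) - ∑ m ∈ Finset.range n, (x : ℂ) ^ m / (m.factorial : ℂ)
      = ((Real.exp x - ∑ m ∈ Finset.range n, x ^ m / m.factorial : ℝ) : ℂ) := by
    push_cast
    rfl
  rw [e, Complex.norm_real, Real.norm_eq_abs] at h
  exact h

/-- number of Taylor terms used for precision `1/(k+1)` when `|w| ≤ M` -/
def t3_half (M k : ℕ) : ℕ := 2 * M ^ 2 + k + 1

theorem t3_taylor_error {x : ℝ} {M : ℕ} (hM : |x| ≤ (M : ℝ)) (k : ℕ) :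
    |Real.exp x - ∑ m ∈ Finset.range (2 * t3_half M k), x ^ m / m.factorial|
      ≤ 1 / ((k : ℝ) + 1) := by
  set m := t3_half M k with hm
  have hm1 : 2 * M ^ 2 ≤ m + 1 := by rw [hm, t3_half]; omega
  have hmk : k + 1 ≤ m := by rw [hm, t3_half]; omega
  have hMm : (M : ℝ) ≤ (m : ℝ) := by
    have : M ≤ m := by
      rw [hm, t3_half]; nlinarith [Nat.zero_le M, Nat.zero_le k]
    exact_mod_cast this
  have h1 : |x| / ((2 * m).succ : ℝ) ≤ 1 / 2 := by
    rw [div_le_iff₀ (by positivity)]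
    push_cast
    linarith
  refine (t3_real_exp_bound h1).trans ?_
  -- `(2m)! ≥ (m+1)^m`
  have hfac : ((m + 1 : ℕ) : ℝ) ^ m ≤ ((2 * m).factorial : ℝ) := by
    have h2 : m.factorial * (m + 1) ^ m ≤ (m + m).factorial := Nat.factorial_mul_pow_le_factorial
    have h3 : (m + 1) ^ m ≤ (2 * m).factorial := by
      rw [two_mul]
      refine le_trans ?_ h2
      exact Nat.le_mul_of_pos_left _ (Nat.factorial_pos m)
    exact_mod_cast h3
  have hpos : (0 : ℝ) < ((m + 1 : ℕ) : ℝ) ^ m := by positivity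
  have hx2 : |x| ^ (2 * m) ≤ ((M : ℝ) ^ 2) ^ m := by
    rw [← pow_mul]
    exact pow_le_pow_left₀ (abs_nonneg x) hM _
  have h4 : |x| ^ (2 * m) / ((2 * m).factorial : ℝ) ≤ (1 / 2 : ℝ) ^ m := by
    calc |x| ^ (2 * m) / ((2 * m).factorial : ℝ)
        ≤ ((M : ℝ) ^ 2) ^ m / ((m + 1 : ℕ) : ℝ) ^ m := by
          apply div_le_div₀ (by positivity) hx2 hpos hfac
      _ = ((M : ℝ) ^ 2 / ((m + 1 : ℕ) : ℝ)) ^ m := by rw [div_pow]
      _ ≤ (1 / 2 : ℝ) ^ m := by
          apply pow_le_pow_left₀ (by positivity)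
          rw [div_le_iff₀ (by positivity)]
          have : ((2 * M ^ 2 : ℕ) : ℝ) ≤ ((m + 1 : ℕ) : ℝ) := by exact_mod_cast hm1
          push_cast at this ⊢
          linarith
  have h5 : (1 / 2 : ℝ) ^ m ≤ (1 / 2 : ℝ) ^ (k + 1) :=
    pow_le_pow_of_le_one (by norm_num) (by norm_num) hmk
  have h6 : ((k : ℝ) + 1) * 2 ≤ (2 : ℝ) ^ (k + 1) := by
    have : (k + 1) < 2 ^ (k + 1) := Nat.lt_two_pow_self
    have h7 : (k + 1) + 1 ≤ 2 ^ (k + 1) := this
    have h8 : k + 1 ≤ 2 ^ k := Nat.lt_two_pow_self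
    have h9 : ((k + 1 : ℕ) : ℝ) ≤ ((2 ^ k : ℕ) : ℝ) := by exact_mod_cast h8
    push_cast at h9
    rw [pow_succ]
    linarith
  have h10 : (1 / 2 : ℝ) ^ (k + 1) * 2 ≤ 1 / ((k : ℝ) + 1) := by
    rw [one_div_pow, le_div_iff₀ (by positivity), one_div, mul_assoc, inv_mul_le_iff₀ (by positivity)]
    linarith
  calc |x| ^ (2 * m) / ((2 * m).factorial : ℝ) * 2 ≤ (1 / 2 : ℝ) ^ (k + 1) * 2 := by
        linarith [h4.trans h5]
    _ ≤ _ := h10

theorem creal_exp : CReal (fun w : ℚ => Real.exp (w : ℝ)) := by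
  -- rational Taylor polynomials
  let N : ℚ × ℕ → ℕ := fun p => 2 * t3_half p.1.num.natAbs p.2
  let T : ℚ × ℕ → ℕ → ℚ := fun p i => p.1 ^ i / (i.factorial : ℚ)
  have hN : Computable N := by
    have ha : Computable (fun p : ℚ × ℕ => p.1.num.natAbs) := comp_rat_natAbs.comp Computable.fst
    have h2 : Computable (fun _ : ℚ × ℕ => (2 : ℕ)) := Computable.const 2
    have h1 : Computable (fun _ : ℚ × ℕ => (1 : ℕ)) := Computable.const 1
    have hsq : Computable (fun p : ℚ × ℕ => p.1.num.natAbs ^ 2) := comp_nat_pow.comp ha h2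
    have hA : Computable (fun p : ℚ × ℕ => 2 * p.1.num.natAbs ^ 2) := comp_nat_mul.comp h2 hsq
    have hB : Computable (fun p : ℚ × ℕ => 2 * p.1.num.natAbs ^ 2 + p.2) :=
      comp_nat_add.comp hA Computable.snd
    have hC : Computable (fun p : ℚ × ℕ => 2 * p.1.num.natAbs ^ 2 + p.2 + 1) :=
      comp_nat_add.comp hB h1
    exact comp_nat_mul.comp h2 hC
  have hT : Computable₂ T := by
    have hp : Computable (fun q : (ℚ × ℕ) × ℕ => q.1.1 ^ q.2) :=
      comp_rat_pow.comp (Computable.fst.comp Computable.fst) Computable.snd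
    have hf : Computable (fun q : (ℚ × ℕ) × ℕ => ((q.2.factorial : ℕ) : ℚ)) :=
      comp_rat_natCast.comp (comp_nat_factorial.comp Computable.snd)
    exact comp_rat_div.comp hp hf
  have hS : Computable (fun p : ℚ × ℕ => ∑ i ∈ Finset.range (N p), T p i) :=
    comp_rat_sum_range hT hN
  have hF : CReal (fun p : ℚ × ℕ => ((∑ i ∈ Finset.range (N p), T p i : ℚ) : ℝ)) :=
    CReal.of_rat hS
  refine CReal.of_limit (F := fun w k => ((∑ i ∈ Finset.range (N (w, k)), T (w, k) i : ℚ) : ℝ))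
    hF ?_
  intro w k
  have h := t3_taylor_error (rat_abs_le_natAbs w) k
  simpa [N, T] using h

/-- closed form on (0,1) -/
theorem smoothTransition_eq_logistic {x : ℝ} (h0 : 0 < x) (h1 : x < 1) :
    Real.smoothTransition x = 1 / (1 + Real.exp (1 / x - 1 / (1 - x))) := by
  have h1' : 0 < 1 - x := by linarith
  unfold Real.smoothTransition expNegInvGlue
  rw [if_neg (not_le.2 h0), if_neg (not_le.2 h1')]
  have e : Real.exp (1 / x - 1 / (1 - x)) = Real.exp (-(1 - x)⁻¹) / Real.exp (-x⁻¹) := by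
    rw [← Real.exp_sub]
    congr 1
    simp only [one_div]
    ring
  rw [e]
  have hp : 0 < Real.exp (-x⁻¹) := Real.exp_pos _
  have hq : 0 < Real.exp (-(1 - x)⁻¹) := Real.exp_pos _
  field_simp

theorem creal_smoothTransition : CReal (fun r : ℚ => Real.smoothTransition (r : ℝ)) := by
  have hid : Computable (fun r : ℚ => r) := Computable.id
  have hc0 : Computable (fun _ : ℚ => (0 : ℚ)) := Computable.const 0
  have hc1 : Computable (fun _ : ℚ => (1 : ℚ)) := Computable.const 1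
  have harg : Computable (fun r : ℚ => 1 / r - 1 / (1 - r)) :=
    comp_rat_sub.comp (comp_rat_div.comp hc1 hid)
      (comp_rat_div.comp hc1 (comp_rat_sub.comp hc1 hid))
  have hE : CReal (fun r : ℚ => Real.exp (((1 / r - 1 / (1 - r) : ℚ)) : ℝ)) :=
    creal_exp.comp harg
  have hL : CReal (fun r : ℚ => 1 / (1 + Real.exp (((1 / r - 1 / (1 - r) : ℚ)) : ℝ))) :=
    hE.inv_one_add (fun _ => (Real.exp_pos _).le)
  have hz : CReal (fun _ : ℚ => ((0 : ℚ) : ℝ)) := CReal.of_rat hc0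
  have ho : CReal (fun _ : ℚ => ((1 : ℚ) : ℝ)) := CReal.of_rat hc1
  have hp0 : Computable (fun r : ℚ => decide (r ≤ 0)) := comp_rat_le.comp hid hc0
  have hp1 : Computable (fun r : ℚ => decide (1 ≤ r)) := comp_rat_le.comp hc1 hid
  have h := CReal.ite hp0 hz (CReal.ite hp1 ho hL)
  refine h.congr ?_
  intro r
  by_cases h0 : r ≤ 0
  · have : (r : ℝ) ≤ 0 := by exact_mod_cast h0
    simp [h0, Real.smoothTransition.zero_of_nonpos this]
  · by_cases h1 : 1 ≤ r
    · have : (1 : ℝ) ≤ (r : ℝ) := by exact_mod_cast h1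
      simp [h0, h1, Real.smoothTransition.one_of_one_le this]
    · have h0' : (0 : ℝ) < (r : ℝ) := by exact_mod_cast not_le.1 h0
      have h1' : (r : ℝ) < 1 := by exact_mod_cast not_le.1 h1
      rw [if_neg h0, if_neg h1, smoothTransition_eq_logistic h0' h1']
      push_cast
      rfl

end Crest.Agent.BoxFlow
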