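/-
S0170 team project, task T5: derivatives are computable from values + derivative bounds
(finite differences, Mathlib's `fwdDiff`).
-/
import Crest.Agent.BoxFlow.CRealLib

set_option autoImplicit false
open scoped ContDiff

namespace Crest.Agent.BoxFlow

theorem t5_contDiff_fwdDiff {g : ℝ → ℝ} (hg : ContDiff ℝ ∞ g) (h : ℝ) :
    ContDiff ℝ ∞ (fwdDiff h g) := by
  unfold fwdDiff
  exact (hg.comp (contDiff_id.add contDiff_const)).sub hg

theorem t5_iteratedDeriv_fwdDiff {g : ℝ → ℝ} (hg : ContDiff ℝ ∞ g) (h : ℝ) (m : ℕ) (x : ℝ) :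
    iteratedDeriv m (fwdDiff h g) x = iteratedDeriv m g (x + h) - iteratedDeriv m g x := by
  have h1 : ContDiff ℝ ∞ (fun z => g (z + h)) := hg.comp (contDiff_id.add contDiff_const)
  have hm : ((m : ℕ∞) : WithTop ℕ∞) ≤ ∞ := by exact_mod_cast le_top
  have : fwdDiff h g = (fun z => g (z + h)) - g := rfl
  rw [this, iteratedDeriv_sub (h1.of_le hm).contDiffAt (hg.of_le hm).contDiffAt,
    iteratedDeriv_comp_add_const]

/-- mean value theorem for iterated forward differences -/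
theorem exists_fwdDiff_iter_eq {g : ℝ → ℝ} (hg : ContDiff ℝ ∞ g) (m : ℕ) (r h : ℝ) (hh : 0 < h) :
    ∃ ξ ∈ Set.Icc r (r + m * h), (fwdDiff h)^[m] g r = h ^ m * iteratedDeriv m g ξ := by
  induction m generalizing g with
  | zero => exact ⟨r, ⟨le_rfl, by simp⟩, by simp⟩
  | succ m ih =>
    obtain ⟨ξ₁, ⟨h1, h2⟩, h3⟩ := ih (t5_contDiff_fwdDiff hg h)
    have hd : Differentiable ℝ (iteratedDeriv m g) :=
      hg.differentiable_iteratedDeriv m (by exact_mod_cast WithTop.coe_lt_top _)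
    obtain ⟨ξ, ⟨h4, h5⟩, h6⟩ := exists_deriv_eq_slope (iteratedDeriv m g)
      (show ξ₁ < ξ₁ + h by linarith) hd.continuous.continuousOn hd.differentiableOn
    refine ⟨ξ, ⟨by linarith, ?_⟩, ?_⟩
    · push_cast; linarith
    · rw [Function.iterate_succ_apply, h3, t5_iteratedDeriv_fwdDiff hg, iteratedDeriv_succ, h6]
      rw [add_sub_cancel_left, pow_succ]
      field_simp

/-- step size -/
def t5_den (B : ℕ → ℕ) (a : (ℕ × ℚ) × ℕ) : ℕ := (a.1.1 + 1) * B (a.1.1 + 1) * (a.2 + 1) + 1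

def t5_h (B : ℕ → ℕ) (a : (ℕ × ℚ) × ℕ) : ℚ := 1 / (t5_den B a : ℚ)

def t5_coef (B : ℕ → ℕ) (p : ((ℕ × ℚ) × ℕ) × ℕ) : ℚ :=
  ((-1 : ℚ) ^ (p.1.1.1 - p.2) * ((p.1.1.1.choose p.2 : ℕ) : ℚ)) / (t5_h B p.1) ^ p.1.1.1

def t5_pt (B : ℕ → ℕ) (p : ((ℕ × ℚ) × ℕ) × ℕ) : ℚ :=
  p.1.1.2 + (p.2 : ℚ) * t5_h B p.1

theorem t5_comp_den {B : ℕ → ℕ} (hB : Computable B) : Computable (t5_den B) := by
  unfold t5_den
  have h1 : Computable (fun a : (ℕ × ℚ) × ℕ => a.1.1 + 1) :=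
    Computable.succ.comp (Computable.fst.comp Computable.fst)
  have h2 : Computable (fun a : (ℕ × ℚ) × ℕ => a.2 + 1) :=
    Computable.succ.comp Computable.snd
  exact Computable.succ.comp
    (comp_nat_mul.comp (comp_nat_mul.comp h1 (hB.comp h1)) h2)

theorem t5_comp_h {B : ℕ → ℕ} (hB : Computable B) : Computable (t5_h B) := by
  unfold t5_h
  exact comp_rat_div.comp (Computable.const 1) (comp_rat_natCast.comp (t5_comp_den hB))

theorem t5_comp_coef {B : ℕ → ℕ} (hB : Computable B) : Computable (t5_coef B) := by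
  unfold t5_coef
  have hm : Computable (fun p : ((ℕ × ℚ) × ℕ) × ℕ => p.1.1.1) :=
    Computable.fst.comp (Computable.fst.comp Computable.fst)
  have hk : Computable (fun p : ((ℕ × ℚ) × ℕ) × ℕ => p.2) := Computable.snd
  have hsub : Computable (fun p : ((ℕ × ℚ) × ℕ) × ℕ => p.1.1.1 - p.2) :=
    Primrec.nat_sub.to_comp.comp hm hk
  exact comp_rat_div.comp
    (comp_rat_mul.comp (comp_rat_pow.comp (Computable.const (-1)) hsub)
      (comp_rat_natCast.comp (comp_nat_choose.comp hm hk)))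
    (comp_rat_pow.comp ((t5_comp_h hB).comp Computable.fst) hm)

theorem t5_comp_pt {B : ℕ → ℕ} (hB : Computable B) : Computable (t5_pt B) := by
  unfold t5_pt
  exact comp_rat_add.comp (Computable.snd.comp (Computable.fst.comp Computable.fst))
    (comp_rat_mul.comp (comp_rat_natCast.comp Computable.snd)
      ((t5_comp_h hB).comp Computable.fst))

theorem t5_h_pos (B : ℕ → ℕ) (a : (ℕ × ℚ) × ℕ) : 0 < t5_h B a := by
  unfold t5_h t5_den
  positivity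

theorem t5_sum_eq (g : ℝ → ℝ) (B : ℕ → ℕ) (a : (ℕ × ℚ) × ℕ) :
    (fwdDiff ((t5_h B a : ℚ) : ℝ))^[a.1.1] g (a.1.2 : ℝ) / ((t5_h B a : ℚ) : ℝ) ^ a.1.1 =
      ∑ k ∈ Finset.range (a.1.1 + 1), ((t5_coef B (a, k) : ℚ) : ℝ) * g ((t5_pt B (a, k) : ℚ) : ℝ) := by
  rw [fwdDiff_iter_eq_sum_shift, Finset.sum_div]
  refine Finset.sum_congr rfl fun k _ => ?_
  simp only [t5_coef, t5_pt]
  push_cast
  simp only [zsmul_eq_mul, nsmul_eq_mul]
  push_cast
  ring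

theorem Eff1.of_values {g : ℝ → ℝ} (hs : ContDiff ℝ ∞ g)
    (hv : CReal (fun r : ℚ => g (r : ℝ)))
    (hb : ∃ B : ℕ → ℕ, Computable B ∧ ∀ m x, |iteratedDeriv m g x| ≤ (B m : ℝ)) : Eff1 g := by
  refine ⟨hs, ?_, hb⟩
  obtain ⟨B, hB, hbd⟩ := hb
  have hF : CReal (fun a : (ℕ × ℚ) × ℕ =>
      (fwdDiff ((t5_h B a : ℚ) : ℝ))^[a.1.1] g (a.1.2 : ℝ) / ((t5_h B a : ℚ) : ℝ) ^ a.1.1) := by
    have h1 : CReal (fun p : ((ℕ × ℚ) × ℕ) × ℕ =>
        ((t5_coef B (p.1, p.2) : ℚ) : ℝ) * g ((t5_pt B (p.1, p.2) : ℚ) : ℝ)) :=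
      (CReal.of_rat (t5_comp_coef hB)).mul (hv.comp (t5_comp_pt hB))
    have h2 := CReal.sum_range (f := fun (a : (ℕ × ℚ) × ℕ) (k : ℕ) =>
        ((t5_coef B (a, k) : ℚ) : ℝ) * g ((t5_pt B (a, k) : ℚ) : ℝ)) h1
        (m := fun a => a.1.1 + 1) (Computable.succ.comp (Computable.fst.comp Computable.fst))
    exact h2.congr fun a => (t5_sum_eq g B a).symm
  refine CReal.of_limit (F := fun (p : ℕ × ℚ) (N : ℕ) =>
      (fwdDiff ((t5_h B (p, N) : ℚ) : ℝ))^[p.1] g (p.2 : ℝ) / ((t5_h B (p, N) : ℚ) : ℝ) ^ p.1) hF ?_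
  rintro ⟨m, r⟩ N
  have hpos : (0 : ℝ) < ((t5_h B ((m, r), N) : ℚ) : ℝ) := by exact_mod_cast t5_h_pos B _
  set h : ℝ := ((t5_h B ((m, r), N) : ℚ) : ℝ) with hh
  obtain ⟨ξ, ⟨h1, h2⟩, h3⟩ := exists_fwdDiff_iter_eq hs m (r : ℝ) h hpos
  simp only
  rw [h3, mul_div_cancel_left₀ _ (pow_pos hpos m).ne']
  have hd : Differentiable ℝ (iteratedDeriv m g) :=
    hs.differentiable_iteratedDeriv m (by exact_mod_cast WithTop.coe_lt_top _)
  have h4 : ‖iteratedDeriv m g (r : ℝ) - iteratedDeriv m g ξ‖ ≤ (B (m + 1) : ℝ) * ‖(r : ℝ) - ξ‖ := by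
    refine Convex.norm_image_sub_le_of_norm_deriv_le (s := Set.univ) (fun x _ => hd x)
      (fun x _ => ?_) convex_univ (Set.mem_univ _) (Set.mem_univ _)
    rw [← iteratedDeriv_succ, Real.norm_eq_abs]
    exact hbd (m + 1) x
  rw [Real.norm_eq_abs, Real.norm_eq_abs] at h4
  refine h4.trans ?_
  have h5 : |(r : ℝ) - ξ| ≤ m * h := by
    rw [abs_sub_comm, abs_of_nonneg (by linarith)]
    linarith
  have hb0 : (0 : ℝ) ≤ (B (m + 1) : ℝ) := Nat.cast_nonneg _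
  refine (mul_le_mul_of_nonneg_left h5 hb0).trans ?_
  have hhval : h = 1 / (((m : ℝ) + 1) * (B (m + 1) : ℝ) * ((N : ℝ) + 1) + 1) := by
    rw [hh]
    simp only [t5_h, t5_den]
    push_cast
    ring
  rw [hhval]
  have hm0 : (0 : ℝ) ≤ (m : ℝ) := Nat.cast_nonneg _
  have hN0 : (0 : ℝ) ≤ (N : ℝ) := Nat.cast_nonneg _
  rw [mul_one_div, mul_div_assoc', div_le_div_iff₀ (by positivity) (by positivity)]
  nlinarith [mul_nonneg hb0 hN0, mul_nonneg hb0 hm0, mul_nonneg (mul_nonneg hb0 hm0) hN0]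

end Crest.Agent.BoxFlow
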