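/-
S0170 team project, task T4: a computable sequence bounding all derivatives of `Real.smoothTransition`.
-/
import Crest.Agent.BoxFlow.RatComp

set_option autoImplicit false

namespace Crest.Agent.BoxFlow

open Polynomial in
/-- `x ↦ x⁻ʲ ψ(x)` with `ψ = expNegInvGlue`. -/
noncomputable def t4_phi (j : ℕ) (x : ℝ) : ℝ := (X ^ j : ℝ[X]).eval x⁻¹ * expNegInvGlue x

theorem t4_phi_contDiff (j : ℕ) {n : ℕ∞} : ContDiff ℝ n (t4_phi j) :=
  expNegInvGlue.contDiff_polynomial_eval_inv_mul _

theorem t4_phi_zero : t4_phi 0 = expNegInvGlue := by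
  funext x; simp [t4_phi]

theorem t4_phi_deriv (j : ℕ) :
    deriv (t4_phi j) = fun x => t4_phi (j + 2) x - (j : ℝ) * t4_phi (j + 1) x := by
  funext x
  have h := (expNegInvGlue.hasDerivAt_polynomial_eval_inv_mul (Polynomial.X ^ j) x).deriv
  unfold t4_phi
  rw [h]
  cases j with
  | zero => simp
  | succ j =>
    simp
    ring

theorem t4_phi_bound0 (j : ℕ) (x : ℝ) : |t4_phi j x| ≤ (j.factorial : ℝ) := by
  unfold t4_phi
  rcases le_or_gt x 0 with hx | hx
  · rw [expNegInvGlue.zero_of_nonpos hx]; simp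
  · have hy : 0 ≤ x⁻¹ := (inv_pos.2 hx).le
    have h1 : expNegInvGlue x = Real.exp (-x⁻¹) := by simp [expNegInvGlue, hx.not_ge]
    rw [h1]
    simp only [Polynomial.eval_pow, Polynomial.eval_X]
    rw [abs_of_nonneg (by positivity), Real.exp_neg]
    have h2 := Real.pow_div_factorial_le_exp x⁻¹ hy j
    have h3 : (0 : ℝ) < j.factorial := by positivity
    rw [div_le_iff₀ h3] at h2
    rw [← div_eq_mul_inv, div_le_iff₀ (Real.exp_pos _)]
    linarith

theorem t4_phi_bound (k : ℕ) : ∀ (j : ℕ) (x : ℝ),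
    |iteratedDeriv k (t4_phi j) x| ≤ ((2 ^ k * (j + 2 * k).factorial : ℕ) : ℝ) := by
  induction k with
  | zero => intro j x; simpa using t4_phi_bound0 j x
  | succ k ih =>
    intro j x
    rw [iteratedDeriv_succ', t4_phi_deriv]
    rw [iteratedDeriv_fun_sub (t4_phi_contDiff _).contDiffAt
      ((contDiff_const.mul (t4_phi_contDiff _)).contDiffAt), iteratedDeriv_const_mul_field]
    have h1 := ih (j + 2) x
    have h2 := ih (j + 1) x
    have e1 : j + 2 + 2 * k = j + 2 * (k + 1) := by ring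
    have e2 : j + 2 * (k + 1) = (j + 1 + 2 * k) + 1 := by ring
    rw [e1] at h1
    have h3 : (j : ℝ) * |iteratedDeriv k (t4_phi (j + 1)) x|
        ≤ ((2 ^ k * (j + 2 * (k + 1)).factorial : ℕ) : ℝ) := by
      calc (j : ℝ) * |iteratedDeriv k (t4_phi (j + 1)) x|
          ≤ (j : ℝ) * ((2 ^ k * (j + 1 + 2 * k).factorial : ℕ) : ℝ) := by gcongr
        _ = ((j * (2 ^ k * (j + 1 + 2 * k).factorial) : ℕ) : ℝ) := by push_cast; ring
        _ ≤ ((2 ^ k * (j + 2 * (k + 1)).factorial : ℕ) : ℝ) := by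
            rw [e2, Nat.factorial_succ]
            norm_cast
            nlinarith [Nat.zero_le (2 ^ k * (j + 1 + 2 * k).factorial),
              Nat.zero_le ((2 * k + 2) * (2 ^ k * (j + 1 + 2 * k).factorial))]
    calc |iteratedDeriv k (t4_phi (j + 2)) x - (j : ℝ) * iteratedDeriv k (t4_phi (j + 1)) x|
        ≤ |iteratedDeriv k (t4_phi (j + 2)) x| + |(j : ℝ) * iteratedDeriv k (t4_phi (j + 1)) x| :=
          abs_sub _ _
      _ = |iteratedDeriv k (t4_phi (j + 2)) x| + (j : ℝ) * |iteratedDeriv k (t4_phi (j + 1)) x| := by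
          rw [abs_mul, abs_of_nonneg (Nat.cast_nonneg j : (0 : ℝ) ≤ (j : ℝ))]
      _ ≤ ((2 ^ k * (j + 2 * (k + 1)).factorial : ℕ) : ℝ)
            + ((2 ^ k * (j + 2 * (k + 1)).factorial : ℕ) : ℝ) := add_le_add h1 h3
      _ = ((2 ^ (k + 1) * (j + 2 * (k + 1)).factorial : ℕ) : ℝ) := by push_cast; ring

/-- bound for the derivatives of `expNegInvGlue` -/
def t4_M (k : ℕ) : ℕ := 2 ^ k * (2 * k).factorial

theorem t4_M_mono : Monotone t4_M := by
  intro a b hab
  unfold t4_M
  exact Nat.mul_le_mul (Nat.pow_le_pow_right (by norm_num) hab)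
    (Nat.factorial_le (by omega))

theorem t4_psi_bound (k : ℕ) (x : ℝ) : |iteratedDeriv k expNegInvGlue x| ≤ (t4_M k : ℝ) := by
  have := t4_phi_bound k 0 x
  rw [t4_phi_zero] at this
  simpa [t4_M] using this

/-- the denominator of `smoothTransition` -/
noncomputable def t4_D (x : ℝ) : ℝ := expNegInvGlue x + expNegInvGlue (1 - x)

theorem t4_D_contDiff {n : ℕ∞} : ContDiff ℝ n t4_D := by
  unfold t4_D
  exact expNegInvGlue.contDiff.add (expNegInvGlue.contDiff.comp (contDiff_const.sub contDiff_id))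

theorem t4_D_bound (k : ℕ) (x : ℝ) : |iteratedDeriv k t4_D x| ≤ 2 * (t4_M k : ℝ) := by
  unfold t4_D
  have hc : ContDiff ℝ k (fun x : ℝ => expNegInvGlue (1 - x)) :=
    expNegInvGlue.contDiff.comp (contDiff_const.sub contDiff_id)
  rw [iteratedDeriv_fun_add expNegInvGlue.contDiff.contDiffAt hc.contDiffAt]
  rw [iteratedDeriv_comp_const_sub]
  have h1 := t4_psi_bound k x
  have h2 := t4_psi_bound k (1 - x)
  have h3 : |(-1 : ℝ) ^ k • iteratedDeriv k expNegInvGlue (1 - x)|
      = |iteratedDeriv k expNegInvGlue (1 - x)| := by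
    rw [smul_eq_mul, abs_mul, abs_pow]; simp
  calc _ ≤ |iteratedDeriv k expNegInvGlue x|
        + |(-1 : ℝ) ^ k • iteratedDeriv k expNegInvGlue (1 - x)| := abs_add_le _ _
    _ ≤ _ := by rw [h3]; linarith

theorem t4_psi_half {x : ℝ} (hx : 1 / 2 ≤ x) : 1 / 8 ≤ expNegInvGlue x := by
  have hx0 : 0 < x := by linarith
  have h1 : expNegInvGlue x = Real.exp (-x⁻¹) := by simp [expNegInvGlue, hx0.not_ge]
  rw [h1]
  have h2 : x⁻¹ ≤ 2 := by
    rw [inv_le_comm₀ hx0 (by norm_num)]; linarith
  have h3 : Real.exp (-2) ≤ Real.exp (-x⁻¹) := Real.exp_le_exp.2 (by linarith)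
  have h4 : Real.exp 2 ≤ 8 := by
    have : Real.exp 2 = Real.exp 1 * Real.exp 1 := by rw [← Real.exp_add]; norm_num
    rw [this]
    have := Real.exp_one_lt_d9
    have h0 := Real.exp_pos 1
    nlinarith
  have h5 : (1 : ℝ) / 8 ≤ Real.exp (-2) := by
    rw [Real.exp_neg, one_div]
    exact inv_anti₀ (Real.exp_pos _) h4
  linarith

theorem t4_D_lower (x : ℝ) : 1 / 8 ≤ t4_D x := by
  unfold t4_D
  rcases le_total (1 / 2) x with h | h
  · have := t4_psi_half h
    have := expNegInvGlue.nonneg (1 - x)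
    linarith
  · have := t4_psi_half (x := 1 - x) (by linarith)
    have := expNegInvGlue.nonneg x
    linarith

theorem t4_sigma_mul_D : Real.smoothTransition * t4_D = expNegInvGlue := by
  funext x
  simp only [Pi.mul_apply, Real.smoothTransition, t4_D]
  exact div_mul_cancel₀ _ (Real.smoothTransition.pos_denom x).ne'

/-- the bounding sequence -/
def t4_B : ℕ → ℕ
  | 0 => 1
  | m + 1 => 8 * (t4_M (m + 1) + 2 ^ (m + 1) * (t4_B m * (2 * t4_M (m + 1))))

theorem t4_B_mono : Monotone t4_B := by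
  apply monotone_nat_of_le_succ
  intro m
  have h1 : 1 ≤ t4_M (m + 1) := by
    unfold t4_M; exact Nat.mul_pos (by positivity) (Nat.factorial_pos _)
  have h2 : 1 ≤ 2 ^ (m + 1) := Nat.one_le_two_pow
  show t4_B m ≤ 8 * (t4_M (m + 1) + 2 ^ (m + 1) * (t4_B m * (2 * t4_M (m + 1))))
  have h3 : t4_B m * 1 ≤ t4_B m * (2 * t4_M (m + 1)) := Nat.mul_le_mul_left _ (by omega)
  have h4 : 1 * (t4_B m * (2 * t4_M (m + 1))) ≤ 2 ^ (m + 1) * (t4_B m * (2 * t4_M (m + 1))) :=
    Nat.mul_le_mul_right _ h2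
  omega

theorem t4_sigma_bound (m : ℕ) : ∀ x : ℝ,
    |iteratedDeriv m Real.smoothTransition x| ≤ (t4_B m : ℝ) := by
  induction m using Nat.strong_induction_on with
  | _ m ih =>
    intro x
    cases m with
    | zero =>
      simp only [iteratedDeriv_zero, t4_B, Nat.cast_one]
      rw [abs_of_nonneg (Real.smoothTransition.nonneg x)]
      exact Real.smoothTransition.le_one x
    | succ m =>
      have hL := iteratedDeriv_mul (n := m + 1) (x := x)
        (Real.smoothTransition.contDiff (n := ((m + 1 : ℕ) : ℕ∞))).contDiffAt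
        (t4_D_contDiff (n := ((m + 1 : ℕ) : ℕ∞))).contDiffAt
      rw [t4_sigma_mul_D, Finset.sum_range_succ] at hL
      simp only [Nat.choose_self, Nat.cast_one, one_mul, Nat.sub_self, iteratedDeriv_zero] at hL
      set S := ∑ i ∈ Finset.range (m + 1), ((m + 1).choose i : ℝ) *
        iteratedDeriv i Real.smoothTransition x * iteratedDeriv (m + 1 - i) t4_D x with hS
      have hSb : |S| ≤ (2 ^ (m + 1) : ℝ) * ((t4_B m : ℝ) * (2 * (t4_M (m + 1) : ℝ))) := by
        calc |S| ≤ ∑ i ∈ Finset.range (m + 1), |((m + 1).choose i : ℝ) *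
              iteratedDeriv i Real.smoothTransition x * iteratedDeriv (m + 1 - i) t4_D x| :=
              Finset.abs_sum_le_sum_abs _ _
          _ ≤ ∑ i ∈ Finset.range (m + 1), ((m + 1).choose i : ℝ) *
              ((t4_B m : ℝ) * (2 * (t4_M (m + 1) : ℝ))) := by
              apply Finset.sum_le_sum
              intro i hi
              have hi' : i < m + 1 := Finset.mem_range.1 hi
              rw [abs_mul, abs_mul, abs_of_nonneg (Nat.cast_nonneg _), mul_assoc]
              have a1 : |iteratedDeriv i Real.smoothTransition x| ≤ (t4_B m : ℝ) :=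
                (ih i hi' x).trans (by exact_mod_cast t4_B_mono (by omega))
              have a2 : |iteratedDeriv (m + 1 - i) t4_D x| ≤ 2 * (t4_M (m + 1) : ℝ) :=
                (t4_D_bound _ x).trans (by
                  have : (t4_M (m + 1 - i) : ℝ) ≤ (t4_M (m + 1) : ℝ) := by
                    exact_mod_cast t4_M_mono (by omega)
                  linarith)
              gcongr
          _ = (∑ i ∈ Finset.range (m + 1), ((m + 1).choose i : ℝ)) *
              ((t4_B m : ℝ) * (2 * (t4_M (m + 1) : ℝ))) := by rw [Finset.sum_mul]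
          _ ≤ (2 ^ (m + 1) : ℝ) * ((t4_B m : ℝ) * (2 * (t4_M (m + 1) : ℝ))) := by
              gcongr
              have h := Nat.sum_range_choose (m + 1)
              rw [Finset.sum_range_succ] at h
              have h' : ∑ i ∈ Finset.range (m + 1), (m + 1).choose i ≤ 2 ^ (m + 1) := by omega
              exact_mod_cast h'
      have hpsi := t4_psi_bound (m + 1) x
      have hD := t4_D_lower x
      set a := iteratedDeriv (m + 1) Real.smoothTransition x with ha
      have h1 : a * t4_D x = iteratedDeriv (m + 1) expNegInvGlue x - S := by linarith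
      have h2 : |a| * t4_D x ≤ (t4_M (m + 1) : ℝ)
          + (2 ^ (m + 1) : ℝ) * ((t4_B m : ℝ) * (2 * (t4_M (m + 1) : ℝ))) := by
        have : |a| * t4_D x = |a * t4_D x| := by
          rw [abs_mul, abs_of_nonneg (by linarith : (0 : ℝ) ≤ t4_D x)]
        rw [this, h1]
        exact (abs_sub _ _).trans (add_le_add hpsi hSb)
      have h3 : |a| * (1 / 8) ≤ |a| * t4_D x := by gcongr
      show |a| ≤ ((8 * (t4_M (m + 1) + 2 ^ (m + 1) * (t4_B m * (2 * t4_M (m + 1)))) : ℕ) : ℝ)
      push_cast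
      linarith

theorem t4_M_comp : Computable t4_M := by
  unfold t4_M
  exact comp_nat_mul.comp (comp_nat_pow.comp (Computable.const 2) Computable.id)
    (comp_nat_factorial.comp (comp_nat_mul.comp (Computable.const 2) Computable.id))

theorem t4_B_eq (m : ℕ) : t4_B m = Nat.rec (motive := fun _ => ℕ) 1
    (fun y IH => 8 * (t4_M (y + 1) + 2 ^ (y + 1) * (IH * (2 * t4_M (y + 1))))) m := by
  induction m with
  | zero => rfl
  | succ m ih => rw [t4_B, ih]

theorem t4_B_comp : Computable t4_B := by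
  have hstep : Computable₂ (fun (_ : ℕ) (p : ℕ × ℕ) =>
      8 * (t4_M (p.1 + 1) + 2 ^ (p.1 + 1) * (p.2 * (2 * t4_M (p.1 + 1))))) := by
    have hy : Computable (fun q : ℕ × (ℕ × ℕ) => q.2.1 + 1) :=
      Computable.succ.comp (Computable.fst.comp Computable.snd)
    have hM : Computable (fun q : ℕ × (ℕ × ℕ) => t4_M (q.2.1 + 1)) := t4_M_comp.comp hy
    have hI : Computable (fun q : ℕ × (ℕ × ℕ) => q.2.2) := Computable.snd.comp Computable.snd
    exact comp_nat_mul.comp (Computable.const 8)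
      (comp_nat_add.comp hM (comp_nat_mul.comp (comp_nat_pow.comp (Computable.const 2) hy)
        (comp_nat_mul.comp hI (comp_nat_mul.comp (Computable.const 2) hM))))
  have := Computable.nat_rec (f := fun n : ℕ => n) (g := fun _ : ℕ => (1 : ℕ)) Computable.id
    (Computable.const 1) hstep
  exact this.of_eq (fun m => (t4_B_eq m).symm)

theorem exists_bound_iteratedDeriv_smoothTransition :
    ∃ B : ℕ → ℕ, Computable B ∧ ∀ m x, |iteratedDeriv m Real.smoothTransition x| ≤ (B m : ℝ) :=
  ⟨t4_B, t4_B_comp, t4_sigma_bound⟩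

end Crest.Agent.BoxFlow
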