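/-
S0170 team project, task T6: the 1D building blocks are `Eff1`.
Uses the statements of ExpSigma (values), SigmaBound (bounds), FinDiff (`Eff1.of_values`).
-/
import Crest.Agent.BoxFlow.ExpSigma
import Crest.Agent.BoxFlow.SigmaBound
import Crest.Agent.BoxFlow.FinDiff
import Crest.Agent.BoxFlow.Blocks

set_option autoImplicit false
open scoped ContDiff

namespace Crest.Agent.BoxFlow

theorem Eff1.deriv {g : ℝ → ℝ} (hg : Eff1 g) : Eff1 (deriv g) := by
  refine ⟨?_, ?_, ?_⟩
  · exact (contDiff_infty_iff_deriv.1 hg.smooth).2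
  · have h : Computable (fun p : ℕ × ℚ => (p.1 + 1, p.2)) :=
      (Computable.succ.comp Computable.fst).pair Computable.snd
    refine (hg.approx.comp h).congr ?_
    intro p
    simp only [iteratedDeriv_succ']
  · obtain ⟨B, hB, hb⟩ := hg.bound
    refine ⟨fun m => B (m + 1), hB.comp Computable.succ, fun m x => ?_⟩
    rw [← iteratedDeriv_succ']
    exact hb _ _

/-- difference of two `Eff1` functions -/
theorem Eff1.sub {f g : ℝ → ℝ} (hf : Eff1 f) (hg : Eff1 g) : Eff1 (fun s => f s - g s) := by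
  have key : ∀ (m : ℕ) (x : ℝ), iteratedDeriv m (fun s => f s - g s) x
      = iteratedDeriv m f x - iteratedDeriv m g x := by
    intro m x
    exact iteratedDeriv_fun_sub ((hf.smooth.of_le (by exact_mod_cast le_top)).contDiffAt)
      ((hg.smooth.of_le (by exact_mod_cast le_top)).contDiffAt)
  refine ⟨hf.smooth.sub hg.smooth, ?_, ?_⟩
  · refine (hf.approx.sub hg.approx).congr ?_
    intro p
    exact (key _ _).symm
  · obtain ⟨B₁, hB₁, hb₁⟩ := hf.bound
    obtain ⟨B₂, hB₂, hb₂⟩ := hg.bound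
    refine ⟨fun m => B₁ m + B₂ m, comp_nat_add.comp hB₁ hB₂, fun m x => ?_⟩
    rw [key]
    push_cast
    calc |iteratedDeriv m f x - iteratedDeriv m g x|
        ≤ |iteratedDeriv m f x| + |iteratedDeriv m g x| := abs_sub _ _
      _ ≤ _ := add_le_add (hb₁ _ _) (hb₂ _ _)

theorem t6_iteratedDeriv_sigAff (α β : ℚ) (m : ℕ) (x : ℝ) :
    iteratedDeriv m (sigAff α β) x
      = (α : ℝ) ^ m * iteratedDeriv m Real.smoothTransition ((α : ℝ) * x + (β : ℝ)) := by
  have h1 : ContDiff ℝ m (fun z : ℝ => Real.smoothTransition (z + (β : ℝ))) :=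
    Real.smoothTransition.contDiff.comp (contDiff_id.add contDiff_const)
  have h2 := iteratedDeriv_comp_const_mul h1 (α : ℝ)
  have h3 := iteratedDeriv_comp_add_const m Real.smoothTransition (β : ℝ)
  have h4 : sigAff α β = fun x : ℝ => (fun z : ℝ => Real.smoothTransition (z + (β : ℝ))) ((α : ℝ) * x) := by
    funext s
    rfl
  rw [h4, h2, h3]

theorem eff1_sigAff (α β : ℚ) : Eff1 (sigAff α β) := by
  refine Eff1.of_values (contDiff_sigAff α β) ?_ ?_
  · have h : Computable (fun r : ℚ => α * r + β) :=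
      comp_rat_add.comp (comp_rat_mul.comp (Computable.const α) Computable.id) (Computable.const β)
    refine (creal_smoothTransition.comp h).congr ?_
    intro r
    simp only [sigAff]
    push_cast
    rfl
  · obtain ⟨B, hB, hb⟩ := exists_bound_iteratedDeriv_smoothTransition
    refine ⟨fun m => α.num.natAbs ^ m * B m,
      comp_nat_mul.comp (comp_nat_pow.comp (Computable.const _) Computable.id) hB, fun m x => ?_⟩
    rw [t6_iteratedDeriv_sigAff, abs_mul, abs_pow]
    push_cast
    exact mul_le_mul (pow_le_pow_left₀ (abs_nonneg _) (rat_abs_le_natAbs α) m) (hb _ _)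
      (abs_nonneg _) (by positivity)

theorem eff1_timeStep (K k : ℕ) : Eff1 (timeStep K k) := eff1_sigAff _ _

theorem eff1_cutoff (lo hi w : ℚ) : Eff1 (cutoff lo hi w) :=
  (eff1_sigAff (1 / w) (-(lo - 2 * w) / w)).sub (eff1_sigAff (1 / w) (-(hi + w) / w))

theorem t6_iteratedDeriv_quad (a b : ℝ) (i : ℕ) (x : ℝ) :
    iteratedDeriv i (fun s : ℝ => a * s + b / 2 * s ^ 2) x
      = if i = 0 then a * x + b / 2 * x ^ 2 else if i = 1 then a + b * x
        else if i = 2 then b else 0 := by
  have d1 : deriv (fun s : ℝ => a * s + b / 2 * s ^ 2) = fun s => a + b * s := by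
    funext s
    have h : HasDerivAt (fun s : ℝ => a * s + b / 2 * s ^ 2) (a * 1 + b / 2 * (2 * s ^ 1 * 1)) s :=
      ((hasDerivAt_id s).const_mul a).add (((hasDerivAt_id s).pow 2).const_mul (b / 2))
    rw [h.deriv]
    ring
  have d2 : deriv (fun s : ℝ => a + b * s) = fun _ => b := by
    funext s
    have h : HasDerivAt (fun s : ℝ => a + b * s) (b * 1) s :=
      ((hasDerivAt_id s).const_mul b).const_add a
    rw [h.deriv]
    ring
  match i with
  | 0 => simp
  | 1 => simp [iteratedDeriv_one, d1]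
  | 2 => simp [iteratedDeriv_succ', d1, d2]
  | (k + 3) =>
    rw [iteratedDeriv_succ', iteratedDeriv_succ', d1, d2]
    simp [iteratedDeriv_succ']

theorem t6_quad_bound (α β : ℚ) (R : ℕ) (i : ℕ) (x : ℝ) (hx : |x| ≤ (R : ℝ)) :
    |iteratedDeriv i (fun s : ℝ => (α : ℝ) * s + (β : ℝ) / 2 * s ^ 2) x|
      ≤ ((α.num.natAbs * R + β.num.natAbs * R ^ 2 + α.num.natAbs + β.num.natAbs * R
          + β.num.natAbs : ℕ) : ℝ) := by
  have hA := rat_abs_le_natAbs α
  have hB := rat_abs_le_natAbs β
  set A : ℝ := (α.num.natAbs : ℝ) with hAdef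
  set Bb : ℝ := (β.num.natAbs : ℝ) with hBdef
  have hA0 : 0 ≤ A := Nat.cast_nonneg _
  have hB0 : 0 ≤ Bb := Nat.cast_nonneg _
  have hR0 : (0 : ℝ) ≤ R := Nat.cast_nonneg _
  have hx0 := abs_nonneg x
  have e1 : |(α : ℝ) * x| ≤ A * R := by
    rw [abs_mul]; exact mul_le_mul hA hx hx0 hA0
  have e2 : |(β : ℝ) * x| ≤ Bb * R := by
    rw [abs_mul]; exact mul_le_mul hB hx hx0 hB0
  have e3 : |(β : ℝ) / 2 * x ^ 2| ≤ Bb * (R : ℝ) ^ 2 := by
    rw [abs_mul, abs_pow, abs_div]
    have h2 : |(β : ℝ)| / |(2 : ℝ)| ≤ Bb := by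
      rw [abs_of_pos (by norm_num : (0 : ℝ) < 2)]
      have := abs_nonneg (β : ℝ)
      linarith
    exact mul_le_mul h2 (pow_le_pow_left₀ hx0 hx 2) (by positivity) hB0
  have p1 : 0 ≤ A * R := by positivity
  have p2 : 0 ≤ Bb * R := by positivity
  have p3 : 0 ≤ Bb * (R : ℝ) ^ 2 := by positivity
  rw [t6_iteratedDeriv_quad]
  push_cast
  rw [← hAdef, ← hBdef]
  split_ifs
  · calc |(α : ℝ) * x + (β : ℝ) / 2 * x ^ 2| ≤ |(α : ℝ) * x| + |(β : ℝ) / 2 * x ^ 2| :=
        abs_add_le _ _
      _ ≤ _ := by linarith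
  · calc |(α : ℝ) + (β : ℝ) * x| ≤ |(α : ℝ)| + |(β : ℝ) * x| := abs_add_le _ _
      _ ≤ _ := by linarith
  · linarith
  · rw [abs_zero]; linarith

theorem eff1_polyCut (α β lo hi w : ℚ) (hw : 0 < w) (hlh : lo ≤ hi) :
    Eff1 (polyCut α β lo hi w) := by
  have hχ := eff1_cutoff lo hi w
  refine Eff1.of_values (contDiff_polyCut α β lo hi w) ?_ ?_
  · have h1 : Computable (fun r : ℚ => α * r + β / 2 * r ^ 2) :=
      comp_rat_add.comp (comp_rat_mul.comp (Computable.const α) Computable.id)
        (comp_rat_mul.comp (Computable.const (β / 2))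
          (comp_rat_pow.comp Computable.id (Computable.const 2)))
    have h2 : Computable (fun r : ℚ => ((0 : ℕ), r)) :=
      (Computable.const 0).pair Computable.id
    refine ((CReal.of_rat h1).mul (hχ.approx.comp h2)).congr ?_
    intro r
    simp only [polyCut, iteratedDeriv_zero]
    push_cast
    rfl
  · obtain ⟨B, hB, hb⟩ := hχ.bound
    set R : ℕ := lo.num.natAbs + hi.num.natAbs + 2 * w.num.natAbs with hR
    set C : ℕ := α.num.natAbs * R + β.num.natAbs * R ^ 2 + α.num.natAbs + β.num.natAbs * R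
          + β.num.natAbs with hC
    have hf : Computable₂ (fun m i : ℕ => m.choose i * C * B (m - i)) :=
      comp_nat_mul.comp (comp_nat_mul.comp (comp_nat_choose.comp Computable.fst Computable.snd)
        (Computable.const C)) (hB.comp (Primrec.nat_sub.to_comp.comp Computable.fst Computable.snd))
    refine ⟨fun m => ∑ i ∈ Finset.range (m + 1), m.choose i * C * B (m - i),
      comp_nat_sum_range hf Computable.succ, fun m x => ?_⟩
    have hnn : (0 : ℝ) ≤ ((∑ i ∈ Finset.range (m + 1), m.choose i * C * B (m - i) : ℕ) : ℝ) :=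
      Nat.cast_nonneg _
    have hw' : (0 : ℝ) < (w : ℝ) := by exact_mod_cast hw
    by_cases hx1 : x < (lo : ℝ) - 2 * w
    · have : polyCut α β lo hi w =ᶠ[nhds x] fun _ => (0 : ℝ) := by
        filter_upwards [Iio_mem_nhds hx1] with s hs
        simp only [polyCut, cutoff_eq_zero_left hw hlh (le_of_lt hs), mul_zero]
      rw [this.iteratedDeriv_eq m]
      simpa [iteratedDeriv_const] using hnn
    by_cases hx2 : (hi : ℝ) + 2 * w < x
    · have : polyCut α β lo hi w =ᶠ[nhds x] fun _ => (0 : ℝ) := by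
        filter_upwards [Ioi_mem_nhds hx2] with s hs
        simp only [polyCut, cutoff_eq_zero_right hw hlh (le_of_lt hs), mul_zero]
      rw [this.iteratedDeriv_eq m]
      simpa [iteratedDeriv_const] using hnn
    rw [not_lt] at hx1 hx2
    have hxR : |x| ≤ (R : ℝ) := by
      have a1 := rat_abs_le_natAbs lo
      have a2 := rat_abs_le_natAbs hi
      have a3 := rat_abs_le_natAbs w
      have b1 := neg_abs_le (lo : ℝ)
      have b2 := le_abs_self (hi : ℝ)
      have b3 := le_abs_self (w : ℝ)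
      have c1 := abs_nonneg (lo : ℝ)
      have c2 := abs_nonneg (hi : ℝ)
      rw [hR]
      push_cast
      rw [abs_le]
      constructor <;> linarith
    have hP : ContDiff ℝ ∞ (fun s : ℝ => (α : ℝ) * s + (β : ℝ) / 2 * s ^ 2) := by fun_prop
    have hmul : iteratedDeriv m (polyCut α β lo hi w) x
        = ∑ i ∈ Finset.range (m + 1), (m.choose i : ℝ)
            * iteratedDeriv i (fun s : ℝ => (α : ℝ) * s + (β : ℝ) / 2 * s ^ 2) x
            * iteratedDeriv (m - i) (cutoff lo hi w) x := by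
      have : polyCut α β lo hi w
          = fun s => (fun s : ℝ => (α : ℝ) * s + (β : ℝ) / 2 * s ^ 2) s * cutoff lo hi w s := by
        funext s; rfl
      rw [this]
      exact iteratedDeriv_fun_mul ((hP.of_le (by exact_mod_cast le_top)).contDiffAt)
        ((hχ.smooth.of_le (by exact_mod_cast le_top)).contDiffAt)
    rw [hmul]
    push_cast
    refine (Finset.abs_sum_le_sum_abs _ _).trans (Finset.sum_le_sum fun i _ => ?_)
    rw [abs_mul, abs_mul, Nat.abs_cast]
    have q := t6_quad_bound α β R i x hxR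
    rw [← hC] at q
    exact mul_le_mul (mul_le_mul_of_nonneg_left q (Nat.cast_nonneg _)) (hb _ _) (abs_nonneg _)
      (by positivity)

end Crest.Agent.BoxFlow
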