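/-
S0170 team project, task T7: separable products of `Eff1` functions are `EffS`; closure of `EffS`;
from `EffS` components to the Prelude's `Effective`.
-/
import Crest.Agent.BoxFlow.CRealLib

set_option autoImplicit false
open scoped ContDiff
open Crest.AnalysisR.BoxFlow

namespace Crest.Agent.BoxFlow

/-! ### the coordinate functionals -/

/-- the `d`-th coordinate of a space-time point as a continuous linear map -/
noncomputable def t7_coordL (d : Fin 4) : ST →L[ℝ] ℝ :=
  Fin.cases (ContinuousLinearMap.fst ℝ ℝ (Fin 3 → ℝ))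
    (fun j => (ContinuousLinearMap.proj j).comp (ContinuousLinearMap.snd ℝ ℝ (Fin 3 → ℝ))) d

theorem t7_coordL_apply (d : Fin 4) (p : ST) : t7_coordL d p = coord p d := by
  refine Fin.cases ?_ (fun j => ?_) d
  · simp [t7_coordL, coord]
  · simp [t7_coordL, coord]

theorem t7_coord_direction (i d : Fin 4) : coord (direction d) i = if i = d then 1 else 0 := by
  fin_cases d <;> fin_cases i <;> simp [coord, direction, Fin.ext_iff] <;> rfl

theorem t7_sep_eq (g : Fin 4 → ℝ → ℝ) : sep g = fun p => ∏ d : Fin 4, g d (t7_coordL d p) := by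
  funext p
  simp [sep, t7_coordL_apply]

theorem contDiff_sep {g : Fin 4 → ℝ → ℝ} (hg : ∀ d, ContDiff ℝ ∞ (g d)) : ContDiff ℝ ∞ (sep g) := by
  rw [t7_sep_eq]
  exact contDiff_prod (fun d _ => (hg d).comp (t7_coordL d).contDiff)

/-- directional derivative of a separable function: differentiate the `d`-th factor -/
theorem fderiv_sep_direction {g : Fin 4 → ℝ → ℝ} (hg : ∀ d, Differentiable ℝ (g d)) (p : ST)
    (d : Fin 4) :
    fderiv ℝ (sep g) p (direction d) = sep (Function.update g d (deriv (g d))) p := by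
  have h1 : ∀ i : Fin 4, HasFDerivAt (fun q : ST => g i (t7_coordL i q))
      ((deriv (g i) (t7_coordL i p)) • (t7_coordL i)) p := by
    intro i
    have := ((hg i) (t7_coordL i p)).hasDerivAt.comp_hasFDerivAt p (t7_coordL i).hasFDerivAt
    exact this
  have h2 := HasFDerivAt.finsetProd (u := Finset.univ) (x := p) (fun i _ => h1 i)
  rw [t7_sep_eq, h2.fderiv]
  simp only [_root_.sum_apply, _root_.smul_apply, t7_coordL_apply,
    t7_coord_direction, smul_eq_mul]
  rw [Finset.sum_eq_single d]
  · simp only [if_true, mul_one, sep]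
    rw [← Finset.mul_prod_erase Finset.univ _ (Finset.mem_univ d)]
    rw [Function.update_self, mul_comm]
    congr 1
    apply Finset.prod_congr rfl
    intro i hi
    rw [Function.update_of_ne (Finset.ne_of_mem_erase hi)]
  · intro i _ hi
    simp [hi]
  · intro h
    exact absurd (Finset.mem_univ d) h

theorem t7_mixedDerivS_sep_fun {g : Fin 4 → ℝ → ℝ} (hg : ∀ d, ContDiff ℝ ∞ (g d))
    (ds : List (Fin 4)) :
    mixedDerivS ds (sep g) = sep (fun d => iteratedDeriv (ds.count d) (g d)) := by
  induction ds with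
  | nil => simp [mixedDerivS, iteratedDeriv_zero]
  | cons d ds ih =>
    funext p
    simp only [mixedDerivS]
    rw [ih, fderiv_sep_direction]
    · congr 1
      funext e
      by_cases h : e = d
      · subst h
        simp [iteratedDeriv_succ]
      · rw [Function.update_of_ne h, List.count_cons_of_ne (Ne.symm h)]
    · intro e
      exact (hg e).differentiable_iteratedDeriv _ (by exact_mod_cast WithTop.coe_lt_coe.2 (ENat.natCast_lt_top _))

theorem mixedDerivS_sep {g : Fin 4 → ℝ → ℝ} (hg : ∀ d, ContDiff ℝ ∞ (g d)) (ds : List (Fin 4))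
    (p : ST) :
    mixedDerivS ds (sep g) p = ∏ d : Fin 4, iteratedDeriv (ds.count d) (g d) (coord p d) := by
  rw [t7_mixedDerivS_sep_fun hg]
  rfl

/-! ### smoothness and linearity of `mixedDerivS` -/

theorem t7_contDiff_mixedDerivS {f : ST → ℝ} (hf : ContDiff ℝ ∞ f) (ds : List (Fin 4)) :
    ContDiff ℝ ∞ (mixedDerivS ds f) := by
  induction ds with
  | nil => exact hf
  | cons d ds ih =>
    simp only [mixedDerivS]
    exact (ih.fderiv_right (m := ∞) (by simp)).clm_apply contDiff_const

theorem t7_mixedDerivS_zero (ds : List (Fin 4)) :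
    mixedDerivS ds (fun _ : ST => (0 : ℝ)) = fun _ => 0 := by
  induction ds with
  | nil => rfl
  | cons d ds ih =>
    funext p
    simp only [mixedDerivS]
    rw [ih]
    simp

theorem t7_mixedDerivS_add {f g : ST → ℝ} (hf : ContDiff ℝ ∞ f) (hg : ContDiff ℝ ∞ g)
    (ds : List (Fin 4)) :
    mixedDerivS ds (fun p => f p + g p) = fun p => mixedDerivS ds f p + mixedDerivS ds g p := by
  induction ds with
  | nil => rfl
  | cons d ds ih =>
    funext p
    simp only [mixedDerivS]
    rw [ih]
    have h1 : DifferentiableAt ℝ (mixedDerivS ds f) p :=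
      ((t7_contDiff_mixedDerivS hf ds).differentiable (by simp)) p
    have h2 : DifferentiableAt ℝ (mixedDerivS ds g) p :=
      ((t7_contDiff_mixedDerivS hg ds).differentiable (by simp)) p
    rw [fderiv_fun_add h1 h2]
    rfl

theorem t7_mixedDerivS_neg (f : ST → ℝ) (ds : List (Fin 4)) :
    mixedDerivS ds (fun p => - f p) = fun p => - mixedDerivS ds f p := by
  induction ds with
  | nil => rfl
  | cons d ds ih =>
    funext p
    simp only [mixedDerivS]
    rw [ih, fderiv_fun_neg]
    rfl

/-! ### computability helpers -/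

theorem t7_comp_coordQ (d : Fin 4) :
    Computable (fun a : List (Fin 4) × (ℚ × (Fin 3 → ℚ)) => coordQ a.2 d) := by
  refine Fin.cases ?_ (fun j => ?_) d
  · exact Computable.fst.comp Computable.snd
  · exact (comp_fin_eval j).comp (Computable.snd.comp Computable.snd)

theorem t7_coord_rat (t : ℚ) (q : Fin 3 → ℚ) (d : Fin 4) :
    coord ((t : ℝ), ratPoint q) d = ((coordQ (t, q) d : ℚ) : ℝ) := by
  refine Fin.cases ?_ (fun j => ?_) d
  · simp [coord, coordQ]
  · simp [coord, coordQ, ratPoint]

theorem EffS.sep {g : Fin 4 → ℝ → ℝ} (hg : ∀ d, Eff1 (g d)) : EffS (sep g) := by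
  have hsm : ∀ d, ContDiff ℝ ∞ (g d) := fun d => (hg d).smooth
  refine ⟨contDiff_sep hsm, ?_, ?_⟩
  · have h1 : ∀ d : Fin 4, CReal (fun a : List (Fin 4) × (ℚ × (Fin 3 → ℚ)) =>
        iteratedDeriv (a.1.count d) (g d) ((coordQ a.2 d : ℚ) : ℝ)) := by
      intro d
      exact CReal.comp (hg d).approx
        (h := fun a : List (Fin 4) × (ℚ × (Fin 3 → ℚ)) => (a.1.count d, coordQ a.2 d))
        (((comp_list_count d).comp Computable.fst).pair (t7_comp_coordQ d))
    refine (CReal.prod_fin h1).congr ?_
    rintro ⟨ds, t, q⟩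
    rw [mixedDerivS_sep hsm]
    simp only [t7_coord_rat]
  · choose B hBc hB using fun d => (hg d).bound
    refine ⟨fun ds => ∏ d : Fin 4, B d (ds.count d), ?_, ?_⟩
    · simp only [Fin.prod_univ_four]
      have hc : ∀ d : Fin 4, Computable (fun ds : List (Fin 4) => B d (ds.count d)) :=
        fun d => (hBc d).comp (comp_list_count d)
      exact comp_nat_mul.comp (comp_nat_mul.comp (comp_nat_mul.comp (hc 0) (hc 1)) (hc 2)) (hc 3)
    · intro ds p
      rw [mixedDerivS_sep hsm, Finset.abs_prod]
      push_cast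
      exact Finset.prod_le_prod (fun d _ => abs_nonneg _) (fun d _ => hB d _ _)

theorem EffS.zero : EffS (fun _ => 0) := by
  refine ⟨contDiff_const, ?_, ⟨fun _ => 0, Computable.const 0, ?_⟩⟩
  · refine (CReal.of_rat (α := List (Fin 4) × (ℚ × (Fin 3 → ℚ))) (q := fun _ => 0)
      (Computable.const 0)).congr ?_
    intro a
    rw [t7_mixedDerivS_zero]
    simp
  · intro ds p
    rw [t7_mixedDerivS_zero]
    simp

theorem EffS.add {f g : ST → ℝ} (hf : EffS f) (hg : EffS g) : EffS (fun p => f p + g p) := by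
  refine ⟨hf.smooth.add hg.smooth, ?_, ?_⟩
  · refine (hf.approx.add hg.approx).congr ?_
    intro a
    rw [t7_mixedDerivS_add hf.smooth hg.smooth]
  · obtain ⟨B1, hB1c, hB1⟩ := hf.bound
    obtain ⟨B2, hB2c, hB2⟩ := hg.bound
    refine ⟨fun ds => B1 ds + B2 ds, comp_nat_add.comp hB1c hB2c, ?_⟩
    intro ds p
    rw [t7_mixedDerivS_add hf.smooth hg.smooth]
    push_cast
    exact (abs_add_le _ _).trans (add_le_add (hB1 ds p) (hB2 ds p))

theorem EffS.neg {f : ST → ℝ} (hf : EffS f) : EffS (fun p => - f p) := by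
  refine ⟨hf.smooth.neg, ?_, ?_⟩
  · refine (hf.approx.neg).congr ?_
    intro a
    rw [t7_mixedDerivS_neg]
  · obtain ⟨B1, hB1c, hB1⟩ := hf.bound
    refine ⟨B1, hB1c, ?_⟩
    intro ds p
    rw [t7_mixedDerivS_neg, abs_neg]
    exact hB1 ds p

/-! ### vector valued fields -/

theorem t7_contDiff_mixedDeriv {U : Field} (hU : ContDiff ℝ ∞ U) (ds : List (Fin 4)) :
    ContDiff ℝ ∞ (mixedDeriv ds U) := by
  induction ds with
  | nil => exact hU
  | cons d ds ih =>
    simp only [mixedDeriv]
    exact (ih.fderiv_right (m := ∞) (by simp)).clm_apply contDiff_const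

theorem t7_mixedDeriv_apply_fun {U : Field} (hU : ContDiff ℝ ∞ U) (ds : List (Fin 4)) (j : Fin 3) :
    (fun p => mixedDeriv ds U p j) = mixedDerivS ds (fun q => U q j) := by
  induction ds with
  | nil => rfl
  | cons d ds ih =>
    funext p
    simp only [mixedDeriv, mixedDerivS]
    rw [← ih]
    have hd : DifferentiableAt ℝ (mixedDeriv ds U) p :=
      ((t7_contDiff_mixedDeriv hU ds).differentiable (by simp)) p
    have h := (hasFDerivAt_pi'.1 hd.hasFDerivAt) j
    rw [h.fderiv]
    rfl

/-- components of the Prelude's vector-valued `mixedDeriv` -/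
theorem mixedDeriv_apply {U : Field} (hU : ContDiff ℝ ∞ U) (ds : List (Fin 4)) (p : ST) (j : Fin 3) :
    mixedDeriv ds U p j = mixedDerivS ds (fun q => U q j) p :=
  congrFun (t7_mixedDeriv_apply_fun hU ds j) p

theorem effective_of_components {U : Field} (h : ∀ j, EffS (fun p => U p j)) : Effective U := by
  have hU : ContDiff ℝ ∞ U := contDiff_pi.2 (fun j => (h j).smooth)
  choose G hGc hG using fun j => (h j).approx
  choose B hBc hB using fun j => (h j).bound
  refine ⟨fun a j => G j (a.1, a.2.1) a.2.2, fun ds => B 0 ds + B 1 ds + B 2 ds, ?_, ?_, ?_, ?_⟩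
  · apply comp_fin_arrow
    intro j
    exact (hGc j).comp (Computable.fst.pair (Computable.fst.comp Computable.snd))
      (Computable.snd.comp Computable.snd)
  · exact comp_nat_add.comp (comp_nat_add.comp (hBc 0) (hBc 1)) (hBc 2)
  · intro ds t q n j
    rw [mixedDeriv_apply hU]
    exact hG j (ds, (t, q)) n
  · intro ds p j
    rw [mixedDeriv_apply hU]
    refine (hB j ds p).trans ?_
    push_cast
    have h0 : (0 : ℝ) ≤ B 0 ds := Nat.cast_nonneg _
    have h1 : (0 : ℝ) ≤ B 1 ds := Nat.cast_nonneg _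
    have h2 : (0 : ℝ) ≤ B 2 ds := Nat.cast_nonneg _
    fin_cases j <;> simp <;> linarith

end Crest.Agent.BoxFlow
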