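/-
S0170 team project, task T8b: properties of the total field `fieldOf Ms`.
-/
import Crest.Agent.BoxFlow.Blocks
import Crest.Agent.BoxFlow.Eff1Lib
import Crest.Agent.BoxFlow.EffField

set_option autoImplicit false
open scoped ContDiff
open Crest.AnalysisR.BoxFlow

namespace Crest.Agent.BoxFlow

/-- each component of one stage is `±` a separable function (or zero) -/
theorem stage_component_eq_sep (K k : ℕ) (m : Move) (e : Fin 3) (p : ST) :
    deriv (timeStep K k) p.1 * m.dPsi e p.2 =
      sep (Fin.cons (deriv (timeStep K k)) (fun i => m.dfac e i)) p := by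
  simp only [sep, coord, Move.dPsi, Fin.prod_univ_succ (n := 3), Fin.cons_zero, Fin.cons_succ]

/-! ### effectiveness -/

theorem t8b_eff1_base (m : Move) (i : Fin 3) : Eff1 (m.base i) := by
  unfold Move.base
  split_ifs
  · exact eff1_polyCut _ _ _ _ _ m.hw (m.hlh i)
  · exact eff1_cutoff _ _ _

theorem t8b_eff1_dfac (m : Move) (e i : Fin 3) : Eff1 (m.dfac e i) := by
  unfold Move.dfac
  split_ifs
  · exact (t8b_eff1_base m i).deriv
  · exact t8b_eff1_base m i

theorem t8b_effS_stage (K k : ℕ) (m : Move) (e : Fin 3) :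
    EffS (fun p : ST => deriv (timeStep K k) p.1 * m.dPsi e p.2) := by
  have h : (fun p : ST => deriv (timeStep K k) p.1 * m.dPsi e p.2) =
      sep (Fin.cons (deriv (timeStep K k)) (fun i => m.dfac e i)) :=
    funext (stage_component_eq_sep K k m e)
  rw [h]
  apply EffS.sep
  intro d
  refine Fin.cases ?_ ?_ d
  · simpa using (eff1_timeStep K k).deriv
  · intro i
    simpa using t8b_eff1_dfac m e i

/-- the `j`-th component of one stage -/
theorem t8b_stage_apply (K k : ℕ) (m : Move) (j : Fin 3) (p : ST) :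
    (deriv (timeStep K k) p.1 • m.W p.2) j =
      if j = m.j then deriv (timeStep K k) p.1 * m.dPsi m.l p.2
      else if j = m.l then - (deriv (timeStep K k) p.1 * m.dPsi m.j p.2) else 0 := by
  simp only [Pi.smul_apply, smul_eq_mul, Move.W]
  split_ifs <;> ring

theorem t8b_effS_stage_comp (K k : ℕ) (m : Move) (j : Fin 3) :
    EffS (fun p : ST => (deriv (timeStep K k) p.1 • m.W p.2) j) := by
  by_cases hj : j = m.j
  · have h : (fun p : ST => (deriv (timeStep K k) p.1 • m.W p.2) j) =
        fun p : ST => deriv (timeStep K k) p.1 * m.dPsi m.l p.2 := by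
      funext p; rw [t8b_stage_apply, if_pos hj]
    rw [h]; exact t8b_effS_stage K k m m.l
  · by_cases hl : j = m.l
    · have h : (fun p : ST => (deriv (timeStep K k) p.1 • m.W p.2) j) =
          fun p : ST => - (deriv (timeStep K k) p.1 * m.dPsi m.j p.2) := by
        funext p; rw [t8b_stage_apply, if_neg hj, if_pos hl]
      rw [h]; exact (t8b_effS_stage K k m m.j).neg
    · have h : (fun p : ST => (deriv (timeStep K k) p.1 • m.W p.2) j) = fun _ => 0 := by
        funext p; rw [t8b_stage_apply, if_neg hj, if_neg hl]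
      rw [h]; exact EffS.zero

theorem t8b_effS_fieldAux (K : ℕ) (Ms : List Move) :
    ∀ (k : ℕ) (j : Fin 3), EffS (fun p => fieldAux K k Ms p j) := by
  induction Ms with
  | nil => intro k j; simpa [fieldAux] using EffS.zero
  | cons m Ms ih =>
    intro k j
    exact (t8b_effS_stage_comp K k m j).add (ih (k + 1) j)

theorem t8b_contDiff_fieldAux (K k : ℕ) (Ms : List Move) : ContDiff ℝ ∞ (fieldAux K k Ms) :=
  contDiff_pi.2 fun j => (t8b_effS_fieldAux K Ms k j).smooth

theorem contDiff_fieldOf (Ms : List Move) : ContDiff ℝ ∞ (fieldOf Ms) :=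
  t8b_contDiff_fieldAux _ _ _

theorem effective_fieldOf (Ms : List Move) : Effective (fieldOf Ms) :=
  effective_of_components fun j => t8b_effS_fieldAux _ Ms 0 j

/-! ### support -/

theorem t8b_stage_eq_zero_of_time {K k : ℕ} (hk : k + 1 ≤ K) (t : ℝ)
    (ht : t ∉ Set.Icc (1 / 4 : ℝ) (3 / 4)) : deriv (timeStep K k) t = 0 := by
  have hK : 0 < K := by omega
  have hK' : (0 : ℝ) < 2 * K := by positivity
  apply deriv_timeStep_eq_zero hK
  rw [Set.mem_Icc, not_and_or, not_le, not_le] at ht
  rcases ht with ht | ht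
  · left
    have : (0 : ℝ) ≤ (k : ℝ) / (2 * K) := by positivity
    linarith
  · right
    have h1 : ((k : ℝ) + 1) / (2 * K) ≤ 1 / 2 := by
      rw [div_le_iff₀ hK']
      have : ((k : ℝ) + 1) ≤ K := by exact_mod_cast hk
      linarith
    linarith

theorem t8b_fieldAux_eq_zero_of_time (K : ℕ) (Ms : List Move) :
    ∀ (k : ℕ), k + Ms.length ≤ K → ∀ p : ST, p.1 ∉ Set.Icc (1 / 4 : ℝ) (3 / 4) →
      fieldAux K k Ms p = 0 := by
  induction Ms with
  | nil => intro k _ p _; rfl
  | cons m Ms ih =>
    intro k hk p hp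
    have hk' : k + 1 + Ms.length ≤ K := by simp only [List.length_cons] at hk; omega
    have h1 : deriv (timeStep K k) p.1 = 0 := t8b_stage_eq_zero_of_time (by omega) _ hp
    show deriv (timeStep K k) p.1 • m.W p.2 + fieldAux K (k + 1) Ms p = 0
    rw [h1, ih (k + 1) hk' p hp]; simp

theorem fieldOf_eq_zero_of_time (Ms : List Move) (p : ST)
    (hp : p.1 ∉ Set.Icc (1 / 4 : ℝ) (3 / 4)) : fieldOf Ms p = 0 :=
  t8b_fieldAux_eq_zero_of_time _ Ms 0 (by simp) p hp

theorem t8b_hasCompactSupport_stage {K k : ℕ} (hk : k + 1 ≤ K) (m : Move) :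
    HasCompactSupport (fun p : ST => deriv (timeStep K k) p.1 • m.W p.2) := by
  have hc : IsCompact ((Set.Icc (1 / 4 : ℝ) (3 / 4)) ×ˢ
      (Set.pi Set.univ fun i : Fin 3 =>
        Set.Icc ((m.lo i : ℝ) - 2 * (m.w : ℝ)) ((m.hi i : ℝ) + 2 * (m.w : ℝ)))) :=
    isCompact_Icc.prod (isCompact_univ_pi fun i => isCompact_Icc)
  refine HasCompactSupport.intro hc ?_
  intro p hp
  by_cases ht : p.1 ∈ Set.Icc (1 / 4 : ℝ) (3 / 4)
  · have hx : p.2 ∈ m.outside := by
      by_contra hx
      apply hp
      refine ⟨ht, fun i _ => ?_⟩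
      simp only [Move.outside, Set.mem_ofPred_eq, not_exists, not_or, not_lt] at hx
      exact hx i
    rw [Move.W_of_mem_outside m hx, smul_zero]
  · rw [t8b_stage_eq_zero_of_time hk _ ht, zero_smul]

theorem t8b_hasCompactSupport_fieldAux (K : ℕ) (Ms : List Move) :
    ∀ (k : ℕ), k + Ms.length ≤ K → HasCompactSupport (fieldAux K k Ms) := by
  induction Ms with
  | nil => intro k _; exact HasCompactSupport.zero
  | cons m Ms ih =>
    intro k hk
    have hk' : k + 1 + Ms.length ≤ K := by simp only [List.length_cons] at hk; omega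
    exact (t8b_hasCompactSupport_stage (by omega) m).add (ih (k + 1) hk')

theorem hasCompactSupport_fieldOf (Ms : List Move) : HasCompactSupport (fieldOf Ms) :=
  t8b_hasCompactSupport_fieldAux _ Ms 0 (by simp)

/-! ### divergence -/

theorem t8b_direction_succ (j : Fin 3) : direction j.succ = ((0 : ℝ), (Pi.single j 1 : Fin 3 → ℝ)) := by
  simp [direction, Fin.succ_ne_zero]

/-- the divergence in terms of the scalar components -/
theorem t8b_spaceDiv_eq {U : Field} (p : ST) (hU : DifferentiableAt ℝ U p) :
    spaceDiv U p = ∑ j : Fin 3, fderiv ℝ (fun q => U q j) p (direction j.succ) := by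
  unfold spaceDiv
  refine Finset.sum_congr rfl fun j _ => ?_
  rw [fderiv_apply hU j, t8b_direction_succ]
  rfl

theorem t8b_spaceDiv_add {U V : Field} (p : ST) (hU : DifferentiableAt ℝ U p)
    (hV : DifferentiableAt ℝ V p) :
    spaceDiv (fun q => U q + V q) p = spaceDiv U p + spaceDiv V p := by
  unfold spaceDiv
  rw [fderiv_fun_add hU hV, ← Finset.sum_add_distrib]
  rfl

theorem t8b_differentiable_facs (K k : ℕ) (m : Move) (e : Fin 3) (d : Fin 4) :
    Differentiable ℝ
      ((Fin.cons (deriv (timeStep K k)) (fun i => m.dfac e i) : Fin 4 → ℝ → ℝ) d) := by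
  refine Fin.cases ?_ ?_ d
  · simpa using ((eff1_timeStep K k).deriv.smooth).differentiable (by simp)
  · intro i
    simpa using (m.contDiff_dfac e i).differentiable (by simp)

/-- the second mixed derivative factors do not depend on the order -/
theorem t8b_update_dfac (m : Move) :
    Function.update (fun i => m.dfac m.l i) m.j (deriv (m.dfac m.l m.j)) =
      Function.update (fun i => m.dfac m.j i) m.l (deriv (m.dfac m.j m.l)) := by
  have hjl := m.hjl
  funext i
  by_cases hij : i = m.j
  · subst hij
    rw [Function.update_self, Function.update_of_ne hjl]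
    simp [Move.dfac, hjl]
  · by_cases hil : i = m.l
    · subst hil
      rw [Function.update_self, Function.update_of_ne hij]
      simp [Move.dfac, hij]
    · rw [Function.update_of_ne hij, Function.update_of_ne hil]
      simp [Move.dfac, hij, hil]

theorem t8b_spaceDiv_stage (K k : ℕ) (m : Move) (p : ST) :
    spaceDiv (fun q : ST => deriv (timeStep K k) q.1 • m.W q.2) p = 0 := by
  have hd : DifferentiableAt ℝ (fun q : ST => deriv (timeStep K k) q.1 • m.W q.2) p := by
    have : ContDiff ℝ ∞ (fun q : ST => deriv (timeStep K k) q.1 • m.W q.2) :=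
      contDiff_pi.2 fun j => (t8b_effS_stage_comp K k m j).smooth
    exact (this.differentiable (by simp)) p
  rw [t8b_spaceDiv_eq p hd]
  have hA : (fun q : ST => (deriv (timeStep K k) q.1 • m.W q.2) m.j) =
      sep (Fin.cons (deriv (timeStep K k)) (fun i => m.dfac m.l i)) := by
    funext q
    rw [t8b_stage_apply, if_pos rfl, stage_component_eq_sep]
  have hB : (fun q : ST => (deriv (timeStep K k) q.1 • m.W q.2) m.l) =
      fun q => - sep (Fin.cons (deriv (timeStep K k)) (fun i => m.dfac m.j i)) q := by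
    funext q
    rw [t8b_stage_apply, if_neg m.hjl.symm, if_pos rfl, stage_component_eq_sep]
  rw [Finset.sum_eq_add m.j m.l m.hjl]
  · rw [hA, hB, fderiv_fun_neg, fderiv_sep_direction (t8b_differentiable_facs K k m m.l),
      _root_.neg_apply, fderiv_sep_direction (t8b_differentiable_facs K k m m.j),
      Fin.cons_succ, Fin.cons_succ, ← Fin.cons_update, ← Fin.cons_update, t8b_update_dfac]
    ring
  · intro c _ hc
    have h0 : (fun q : ST => (deriv (timeStep K k) q.1 • m.W q.2) c) = fun _ => 0 := by
      funext q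
      rw [t8b_stage_apply, if_neg hc.1, if_neg hc.2]
    rw [h0]
    simp
  · intro h; exact absurd (Finset.mem_univ _) h
  · intro h; exact absurd (Finset.mem_univ _) h

theorem t8b_spaceDiv_fieldAux (K : ℕ) (Ms : List Move) :
    ∀ (k : ℕ) (p : ST), spaceDiv (fieldAux K k Ms) p = 0 := by
  induction Ms with
  | nil =>
    intro k p
    have : fieldAux K k [] = fun _ => 0 := rfl
    rw [this]
    simp [spaceDiv]
  | cons m Ms ih =>
    intro k p
    have hd : DifferentiableAt ℝ (fun q : ST => deriv (timeStep K k) q.1 • m.W q.2) p := by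
      have : ContDiff ℝ ∞ (fun q : ST => deriv (timeStep K k) q.1 • m.W q.2) :=
        contDiff_pi.2 fun j => (t8b_effS_stage_comp K k m j).smooth
      exact (this.differentiable (by simp)) p
    have hd' : DifferentiableAt ℝ (fieldAux K (k + 1) Ms) p :=
      ((t8b_contDiff_fieldAux K (k + 1) Ms).differentiable (by simp)) p
    have h := t8b_spaceDiv_add p hd hd'
    rw [t8b_spaceDiv_stage, ih, add_zero] at h
    exact h

theorem spaceDiv_fieldOf (Ms : List Move) (p : ST) : spaceDiv (fieldOf Ms) p = 0 :=
  t8b_spaceDiv_fieldAux _ Ms 0 p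

end Crest.Agent.BoxFlow
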