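/-
S0170 team project, task T9: existence of the flow, with the explicit trajectories on the bodies.
(owner: helper53)
-/
import Crest.Agent.BoxFlow.FieldProps

set_option autoImplicit false
open scoped ContDiff NNReal Topology
open Crest.AnalysisR.BoxFlow

namespace Crest.Agent.BoxFlow

/-- solution on `[-1,2]` from Picard-Lindelof -/
theorem t9_exists_local_solution (U : Field) (hs : ContDiff ℝ ∞ U) (hc : HasCompactSupport U)
    (x : E3) :
    ∃ α : ℝ → E3, α 0 = x ∧ ∀ t ∈ Set.Icc (-1 : ℝ) 2,
      HasDerivWithinAt α (U (t, α t)) (Set.Icc (-1 : ℝ) 2) t := by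
  obtain ⟨K, hK⟩ := ContDiff.lipschitzWith_of_hasCompactSupport hc hs (by simp)
  obtain ⟨C, hC⟩ := hc.exists_bound_of_continuous hs.continuous
  have hC0 : 0 ≤ C := le_trans (norm_nonneg _) (hC (0, 0))
  let L : ℝ≥0 := ⟨C, hC0⟩
  let t₀ : Set.Icc (-1 : ℝ) 2 := ⟨0, by norm_num, by norm_num⟩
  have hPL : IsPicardLindelof (fun t y => U (t, y)) t₀ x (L * 2) 0 L K := by
    refine ⟨?_, ?_, ?_, ?_⟩
    · intro t _
      have : LipschitzWith K (fun y : E3 => U (t, y)) := by
        have h1 : LipschitzWith 1 (fun y : E3 => ((t, y) : ST)) := LipschitzWith.prodMk_left t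
        have h2 := hK.comp h1
        rw [mul_one] at h2
        exact h2
      exact this.lipschitzOnWith
    · intro y _
      have : Continuous (fun t : ℝ => U (t, y)) := hs.continuous.comp (by fun_prop)
      exact this.continuousOn
    · intro t _ y _
      exact hC (t, y)
    · have : max ((2 : ℝ) - (t₀ : ℝ)) ((t₀ : ℝ) - (-1)) = 2 := by
        show max ((2 : ℝ) - 0) (0 - (-1)) = 2
        norm_num
      rw [this]
      simp
  obtain ⟨α, h0, hα⟩ := hPL.exists_eq_forall_mem_Icc_hasDerivWithinAt₀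
  exact ⟨α, h0, hα⟩

/-- global solutions for a smooth compactly supported field that is switched off outside [1/4,3/4] -/
theorem exists_global_solution (U : Field) (hs : ContDiff ℝ ∞ U) (hc : HasCompactSupport U)
    (hw : ∀ p : ST, p.1 ∉ Set.Icc (1 / 4 : ℝ) (3 / 4) → U p = 0) (x : E3) :
    ∃ γ : ℝ → E3, γ 0 = x ∧ ∀ t, HasDerivAt γ (U (t, γ t)) t := by
  obtain ⟨α, h0, hα⟩ := t9_exists_local_solution U hs hc x
  have hα' : ∀ t ∈ Set.Ioo (-1 : ℝ) 2, HasDerivAt α (U (t, α t)) t := fun t ht =>
    (hα t ⟨ht.1.le, ht.2.le⟩).hasDerivAt (Icc_mem_nhds ht.1 ht.2)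
  -- `α` is constant on `[0,1/4)` and on `(3/4,1]`
  have hleft : ∀ s ∈ Set.Ico (0 : ℝ) (1 / 4), α s = α 0 := by
    intro s hs'
    have hcont : ContinuousOn α (Set.Icc 0 s) := fun u hu =>
      (hα' u ⟨by linarith [hu.1], by linarith [hu.2, hs'.2]⟩).continuousAt.continuousWithinAt
    refine constant_of_has_deriv_right_zero hcont (fun u hu => ?_) s ⟨hs'.1, le_rfl⟩
    have h1 := hα' u ⟨by linarith [hu.1], by linarith [hu.2, hs'.2]⟩
    rw [hw (u, α u) (fun h => by have := h.1; simp only at this; linarith [hu.2, hs'.2])] at h1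
    exact h1.hasDerivWithinAt
  have hright : ∀ s ∈ Set.Ioc (3 / 4 : ℝ) 1, α s = α 1 := by
    intro s hs'
    have hcont : ContinuousOn α (Set.Icc s 1) := fun u hu =>
      (hα' u ⟨by linarith [hu.1, hs'.1], by linarith [hu.2]⟩).continuousAt.continuousWithinAt
    refine (constant_of_has_deriv_right_zero hcont (fun u hu => ?_) 1 ⟨hs'.2, le_rfl⟩).symm
    have h1 := hα' u ⟨by linarith [hu.1, hs'.1], by linarith [hu.2]⟩
    rw [hw (u, α u) (fun h => by have := h.2; simp only at this; linarith [hu.1, hs'.1])] at h1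
    exact h1.hasDerivWithinAt
  refine ⟨fun t => α (max 0 (min t 1)), by simp [h0], fun t => ?_⟩
  rcases lt_or_ge t (1 / 4) with h1 | h1
  · -- locally constant `= α 0`
    have hev : (fun t => α (max 0 (min t 1))) =ᶠ[𝓝 t] fun _ => α 0 := by
      filter_upwards [Iio_mem_nhds h1] with s hs'
      have hs'' : s < 1 / 4 := hs'
      refine hleft _ ⟨le_max_left _ _, ?_⟩
      rw [max_lt_iff]
      exact ⟨by norm_num, lt_of_le_of_lt (min_le_left _ _) hs''⟩
    rw [hw _ (fun h => by have := h.1; simp only at this; linarith)]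
    exact (hasDerivAt_const t (α 0)).congr_of_eventuallyEq hev
  rcases lt_or_ge (3 / 4) t with h2 | h2
  · have hev : (fun t => α (max 0 (min t 1))) =ᶠ[𝓝 t] fun _ => α 1 := by
      filter_upwards [Ioi_mem_nhds h2] with s hs'
      have hs'' : 3 / 4 < s := hs'
      refine hright _ ⟨?_, ?_⟩
      · rw [lt_max_iff, lt_min_iff]
        exact Or.inr ⟨hs'', by norm_num⟩
      · exact max_le (by norm_num) (min_le_right _ _)
    rw [hw _ (fun h => by have := h.2; simp only at this; linarith)]
    exact (hasDerivAt_const t (α 1)).congr_of_eventuallyEq hev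
  · have hev : (fun t => α (max 0 (min t 1))) =ᶠ[𝓝 t] α := by
      filter_upwards [Ioo_mem_nhds (show (0 : ℝ) < t by linarith) (show t < 1 by linarith)]
        with s hs'
      rw [min_eq_left hs'.2.le, max_eq_right hs'.1.le]
    have ht : max 0 (min t 1) = t := by
      rw [min_eq_left (by linarith), max_eq_right (by linarith)]
    show HasDerivAt _ (U (t, α (max 0 (min t 1)))) t
    rw [ht]
    exact (hα' t ⟨by linarith, by linarith⟩).congr_of_eventuallyEq hev

theorem t9_deriv_timeStep_eq_zero {K k : ℕ} (hK : 0 < K) {t : ℝ}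
    (ht : t ≤ 1 / 4 + (k : ℝ) / (2 * K) ∨ 1 / 4 + ((k : ℝ) + 1) / (2 * K) ≤ t) :
    deriv (timeStep K k) t = 0 := by
  rcases ht with ht | ht
  · have h0 := timeStep_eq_zero hK ht
    have : IsLocalMin (timeStep K k) t :=
      Filter.Eventually.of_forall fun s => by rw [h0]; exact (timeStep_mem_Icc K k s).1
    exact this.deriv_eq_zero
  · have h0 := timeStep_eq_one hK ht
    have : IsLocalMax (timeStep K k) t :=
      Filter.Eventually.of_forall fun s => by rw [h0]; exact (timeStep_mem_Icc K k s).2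
    exact this.deriv_eq_zero

theorem t9_hasDerivAt_timeStep (K k : ℕ) (t : ℝ) :
    HasDerivAt (timeStep K k) (deriv (timeStep K k) t) t := by
  have h : ContDiff ℝ ∞ (timeStep K k) := contDiff_sigAff _ _
  exact ((h.differentiable (by simp)) t).hasDerivAt

theorem t9_fieldAux_eq_zero {K : ℕ} (hK : 0 < K) (Ms : List Move) :
    ∀ (k : ℕ) (t : ℝ) (y : E3), t ≤ 1 / 4 + (k : ℝ) / (2 * K) → fieldAux K k Ms (t, y) = 0 := by
  induction Ms with
  | nil => intro k t y _; rfl
  | cons m Ms ih =>
    intro k t y ht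
    have hK' : (0 : ℝ) < 2 * K := by positivity
    have h1 : t ≤ 1 / 4 + ((k + 1 : ℕ) : ℝ) / (2 * K) := by
      refine ht.trans ?_
      have : (k : ℝ) / (2 * K) ≤ ((k + 1 : ℕ) : ℝ) / (2 * K) := by
        apply div_le_div_of_nonneg_right _ hK'.le
        push_cast; linarith
      linarith
    show deriv (timeStep K k) t • m.W y + fieldAux K (k + 1) Ms (t, y) = 0
    rw [ih (k + 1) t y h1, t9_deriv_timeStep_eq_zero hK (Or.inl ht)]
    simp

theorem t9_shift_add_smul_shift (m : Move) (y : E3) (τ : ℝ) :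
    m.shift (y + τ • m.shift y) = m.shift y := by
  have : (y + τ • m.shift y) m.l = y m.l := by
    simp [Move.shift, m.hjl.symm]
  unfold Move.shift at this ⊢
  rw [this]

theorem t9_body_aux {n : ℕ} (B : Fin n → Set E3) (K : ℕ) (hK : 0 < K) (i : Fin n) (x : E3)
    (hx : x ∈ B i) :
    ∀ (L : List (Move × Fin n)) (k : ℕ) (pos : Fin n → E3 → E3), PlanOK B pos L →
    ∃ γ : ℝ → E3, (∀ t, t ≤ 1 / 4 + (k : ℝ) / (2 * K) → γ t = pos i x) ∧
      (∀ t, 1 / 4 + ((k : ℝ) + L.length) / (2 * K) ≤ t → γ t = runPlan pos L i x) ∧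
      ∀ t, HasDerivAt γ (fieldAux K k (L.map Prod.fst) (t, γ t)) t := by
  intro L
  induction L with
  | nil =>
    intro k pos _
    exact ⟨fun _ => pos i x, fun _ _ => rfl, fun _ _ => rfl, fun t => hasDerivAt_const t _⟩
  | cons ma L ih =>
    intro k pos hL
    obtain ⟨m, a⟩ := ma
    obtain ⟨hstep, hL'⟩ := hL
    obtain ⟨γ', hγ0, hγ1, hγd⟩ := ih (k + 1) (stepPos pos m a) hL'
    have hK' : (0 : ℝ) < 2 * K := by positivity
    set d : E3 := if i = a then m.shift (pos i x) else 0 with hd
    have hpos' : stepPos pos m a i x = pos i x + d := by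
      by_cases hia : i = a
      · simp [stepPos, hd, hia]
      · simp [stepPos, hd, hia]
    have hkk : 1 / 4 + ((k + 1 : ℕ) : ℝ) / (2 * K) = 1 / 4 + ((k : ℝ) + 1) / (2 * K) := by
      push_cast; ring
    have hle : 1 / 4 + (k : ℝ) / (2 * K) ≤ 1 / 4 + ((k : ℝ) + 1) / (2 * K) := by
      have : (k : ℝ) / (2 * K) ≤ ((k : ℝ) + 1) / (2 * K) :=
        div_le_div_of_nonneg_right (by linarith) hK'.le
      linarith
    refine ⟨fun t => γ' t - (1 - timeStep K k t) • d, ?_, ?_, ?_⟩
    · intro t ht
      show γ' t - (1 - timeStep K k t) • d = pos i x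
      rw [timeStep_eq_zero hK ht, hγ0 t (by rw [hkk]; exact ht.trans hle), hpos']
      simp
    · intro t ht
      have h1 : 1 / 4 + ((k : ℝ) + 1) / (2 * K) ≤ t := by
        refine le_trans ?_ ht
        have : ((k : ℝ) + 1) / (2 * K) ≤ ((k : ℝ) + ((m, a) :: L).length) / (2 * K) := by
          apply div_le_div_of_nonneg_right _ hK'.le
          simp
        linarith
      show γ' t - (1 - timeStep K k t) • d = runPlan (stepPos pos m a) L i x
      rw [timeStep_eq_one hK h1, hγ1 t (by
        refine le_trans (le_of_eq ?_) ht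
        simp only [List.length_cons]; push_cast; ring)]
      simp
    · intro t
      have hder : HasDerivAt (fun t => γ' t - (1 - timeStep K k t) • d)
          (fieldAux K (k + 1) (L.map Prod.fst) (t, γ' t) -
            (0 - deriv (timeStep K k) t) • d) t :=
        (hγd t).sub (((hasDerivAt_const t (1 : ℝ)).sub (t9_hasDerivAt_timeStep K k t)).smul_const d)
      convert hder using 1
      show deriv (timeStep K k) t • m.W (γ' t - (1 - timeStep K k t) • d) +
          fieldAux K (k + 1) (L.map Prod.fst) (t, γ' t - (1 - timeStep K k t) • d) = _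
      rcases le_total t (1 / 4 + ((k : ℝ) + 1) / (2 * K)) with ht | ht
      · -- stage `k` or earlier
        have ht' : t ≤ 1 / 4 + ((k + 1 : ℕ) : ℝ) / (2 * K) := by rw [hkk]; exact ht
        rw [t9_fieldAux_eq_zero hK _ (k + 1) t _ ht', t9_fieldAux_eq_zero hK _ (k + 1) t _ ht',
          hγ0 t ht', hpos']
        have hpt : pos i x + d - (1 - timeStep K k t) • d = pos i x + timeStep K k t • d := by
          rw [sub_smul, one_smul]; abel
        rw [hpt]
        have hW : m.W (pos i x + timeStep K k t • d) = d := by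
          by_cases hia : i = a
          · subst hia
            have hd' : d = m.shift (pos i x) := by simp [hd]
            rw [hd', m.W_of_mem_core (hstep.1 x hx _ (timeStep_mem_Icc K k t)),
              t9_shift_add_smul_shift]
          · have hd' : d = 0 := by simp [hd, hia]
            rw [hd']
            simpa using m.W_of_mem_outside (hstep.2 i hia x hx)
        rw [hW]
        simp
      · rw [timeStep_eq_one hK ht, t9_deriv_timeStep_eq_zero hK (Or.inr ht)]
        simp

/-- the explicit trajectory of a point of body `i` -/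
theorem exists_body_solution {n : ℕ} (B : Fin n → Set E3) (L : List (Move × Fin n))
    (hL : PlanOK B (fun _ => id) L) (i : Fin n) (x : E3) (hx : x ∈ B i) :
    ∃ γ : ℝ → E3, γ 0 = x ∧ γ 1 = runPlan (fun _ => id) L i x ∧
      ∀ t, HasDerivAt γ (fieldOf (L.map Prod.fst) (t, γ t)) t := by
  rcases Nat.eq_zero_or_pos L.length with h0 | hK
  · have : L = [] := List.length_eq_zero_iff.mp h0
    subst this
    exact ⟨fun _ => x, rfl, rfl, fun t => hasDerivAt_const t _⟩
  · obtain ⟨γ, h0, h1, hd⟩ := t9_body_aux B L.length hK i x hx L 0 (fun _ => id) hL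
    have hK' : (0 : ℝ) < L.length := by exact_mod_cast hK
    refine ⟨γ, h0 0 (by positivity), h1 1 ?_, fun t => ?_⟩
    · have : (((0 : ℕ) : ℝ) + L.length) / (2 * L.length) = 1 / 2 := by
        field_simp; simp
      rw [this]; norm_num
    · have := hd t
      simpa [fieldOf] using this

theorem realize {n : ℕ} (B : Fin n → Set E3) (hB : Pairwise fun i i' => Disjoint (B i) (B i'))
    (L : List (Move × Fin n)) (hL : PlanOK B (fun _ => id) L) :
    ∃ Φ : ℝ → E3 → E3, IsFlow (fieldOf (L.map Prod.fst)) Φ ∧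
      ∀ i, ∀ x ∈ B i, Φ 1 x = runPlan (fun _ => id) L i x := by
  have key : ∀ x : E3, ∃ γ : ℝ → E3, γ 0 = x ∧
      (∀ t, HasDerivAt γ (fieldOf (L.map Prod.fst) (t, γ t)) t) ∧
      ∀ i, x ∈ B i → γ 1 = runPlan (fun _ => id) L i x := by
    intro x
    by_cases hx : ∃ i, x ∈ B i
    · obtain ⟨i, hi⟩ := hx
      obtain ⟨γ, h0, h1, hd⟩ := exists_body_solution B L hL i x hi
      refine ⟨γ, h0, hd, fun i' hi' => ?_⟩
      have : i = i' := by
        by_contra hne
        exact Set.disjoint_left.mp (hB hne) hi hi'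
      rw [← this]; exact h1
    · obtain ⟨γ, h0, hd⟩ := exists_global_solution (fieldOf (L.map Prod.fst))
        (contDiff_fieldOf _) (hasCompactSupport_fieldOf _) (fieldOf_eq_zero_of_time _) x
      exact ⟨γ, h0, hd, fun i hi => absurd ⟨i, hi⟩ hx⟩
  choose Γ h0 hd h1 using key
  exact ⟨fun t x => Γ x t, ⟨h0, fun t x => hd x t⟩, fun i x hx => h1 x i hx⟩

end Crest.Agent.BoxFlow
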