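/-
S0170 team project, task T10: basic reachability lemmas (the only place where real points of the
bodies are handled): `Reach` is an equivalence relation; translating one box along an axis;
reshaping one isolated box by 12 elementary shears.
-/
import Crest.Agent.BoxFlow.Defs

set_option autoImplicit false
open Crest.AnalysisR.BoxFlow

namespace Crest.Agent.BoxFlow

section general
variable {ι : Type} [DecidableEq ι] {B : ι → Set E3}

theorem Reach.refl (pos : ι → E3 → E3) : Reach B pos pos := ⟨[], trivial, fun _ _ _ => rfl⟩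

theorem t10_stepPos_congr {pos₁ pos₂ : ι → E3 → E3} (h : ∀ i, ∀ x ∈ B i, pos₁ i x = pos₂ i x)
    (m : Move) (a : ι) : ∀ i, ∀ x ∈ B i, stepPos pos₁ m a i x = stepPos pos₂ m a i x := by
  intro i x hx
  simp only [stepPos, h i x hx]

theorem t10_stepOK_congr {pos₁ pos₂ : ι → E3 → E3} (h : ∀ i, ∀ x ∈ B i, pos₁ i x = pos₂ i x)
    {m : Move} {a : ι} (hs : StepOK B pos₁ m a) : StepOK B pos₂ m a := by
  refine ⟨fun x hx τ hτ => ?_, fun i hi x hx => ?_⟩
  · rw [← h a x hx]; exact hs.1 x hx τ hτ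
  · rw [← h i x hx]; exact hs.2 i hi x hx

theorem t10_plan_congr (L : List (Move × ι)) : ∀ {pos₁ pos₂ : ι → E3 → E3},
    (∀ i, ∀ x ∈ B i, pos₁ i x = pos₂ i x) → PlanOK B pos₁ L →
    PlanOK B pos₂ L ∧ ∀ i, ∀ x ∈ B i, runPlan pos₁ L i x = runPlan pos₂ L i x := by
  induction L with
  | nil => intro pos₁ pos₂ h _; exact ⟨trivial, h⟩
  | cons ma L ih =>
    intro pos₁ pos₂ h hp
    obtain ⟨h1, h2⟩ := hp
    have := ih (t10_stepPos_congr h ma.1 ma.2) h2
    exact ⟨⟨t10_stepOK_congr h h1, this.1⟩, this.2⟩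

theorem t10_runPlan_append (L₁ L₂ : List (Move × ι)) : ∀ pos : ι → E3 → E3,
    runPlan pos (L₁ ++ L₂) = runPlan (runPlan pos L₁) L₂ := by
  induction L₁ with
  | nil => intro pos; rfl
  | cons ma L ih => intro pos; exact ih _

theorem t10_planOK_append (L₁ L₂ : List (Move × ι)) : ∀ pos : ι → E3 → E3,
    PlanOK B pos L₁ → PlanOK B (runPlan pos L₁) L₂ → PlanOK B pos (L₁ ++ L₂) := by
  induction L₁ with
  | nil => intro pos _ h; exact h
  | cons ma L ih => intro pos h1 h2; exact ⟨h1.1, ih _ h1.2 h2⟩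

/-- only the values on the bodies matter -/
theorem Reach.congr_left {pos₁ pos₂ pos' : ι → E3 → E3} (h : ∀ i, ∀ x ∈ B i, pos₁ i x = pos₂ i x)
    (hr : Reach B pos₁ pos') : Reach B pos₂ pos' := by
  obtain ⟨L, hL, hf⟩ := hr
  obtain ⟨h1, h2⟩ := t10_plan_congr L h hL
  exact ⟨L, h1, fun i x hx => by rw [← h2 i x hx, hf i x hx]⟩

theorem Reach.congr_right {pos pos₁ pos₂ : ι → E3 → E3} (h : ∀ i, ∀ x ∈ B i, pos₁ i x = pos₂ i x)
    (hr : Reach B pos pos₁) : Reach B pos pos₂ := by
  obtain ⟨L, hL, hf⟩ := hr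
  exact ⟨L, hL, fun i x hx => by rw [hf i x hx, h i x hx]⟩

theorem Reach.trans {pos₁ pos₂ pos₃ : ι → E3 → E3} (h₁ : Reach B pos₁ pos₂) (h₂ : Reach B pos₂ pos₃) :
    Reach B pos₁ pos₃ := by
  obtain ⟨L₁, hL₁, hf₁⟩ := h₁
  obtain ⟨L₂, hL₂, hf₂⟩ := h₂
  obtain ⟨h1, h2⟩ := t10_plan_congr L₂ (fun i x hx => (hf₁ i x hx).symm) hL₂
  refine ⟨L₁ ++ L₂, t10_planOK_append _ _ _ hL₁ h1, fun i x hx => ?_⟩
  rw [t10_runPlan_append, ← h2 i x hx, hf₂ i x hx]

/-- the reversed move -/
def Move.rev (m : Move) : Move := { m with α := -m.α, β := -m.β }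

theorem t10_shift_rev (m : Move) (p : E3) : m.rev.shift (p + m.shift p) = - m.shift p := by
  have hl : (p + m.shift p) m.l = p m.l := by
    simp [Move.shift, Pi.single_eq_of_ne (Ne.symm m.hjl)]
  ext e
  by_cases he : e = m.j
  · subst he
    have : m.rev.shift (p + m.shift p) m.j = ((m.rev.α : ℝ) + (m.rev.β : ℝ) * (p + m.shift p) m.rev.l) := by
      simp [Move.shift, Move.rev]
    rw [this]
    have h2 : m.rev.l = m.l := rfl
    rw [h2, hl]
    simp [Move.shift, Move.rev]
    ring
  · have h1 : m.rev.j = m.j := rfl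
    simp [Move.shift, h1, Pi.single_eq_of_ne he]

theorem t10_step_rev {pos : ι → E3 → E3} {m : Move} {a : ι} (hs : StepOK B pos m a) :
    StepOK B (stepPos pos m a) m.rev a ∧ stepPos (stepPos pos m a) m.rev a = pos := by
  constructor
  · refine ⟨fun x hx τ hτ => ?_, fun i hi x hx => ?_⟩
    · have h1 : stepPos pos m a a x = pos a x + m.shift (pos a x) := by simp [stepPos]
      rw [h1, t10_shift_rev]
      have := hs.1 x hx (1 - τ) ⟨by linarith [hτ.2], by linarith [hτ.1]⟩
      have h2 : pos a x + m.shift (pos a x) + τ • -m.shift (pos a x)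
          = pos a x + (1 - τ) • m.shift (pos a x) := by
        rw [sub_smul, one_smul, smul_neg]; abel
      rw [h2]
      exact this
    · have h1 : stepPos pos m a i x = pos i x := by simp [stepPos, hi]
      rw [h1]
      exact hs.2 i hi x hx
  · funext i x
    by_cases hi : i = a
    · subst hi
      have h1 : stepPos pos m i i x = pos i x + m.shift (pos i x) := by simp [stepPos]
      have : stepPos (stepPos pos m i) m.rev i i x
          = stepPos pos m i i x + m.rev.shift (stepPos pos m i i x) := by simp [stepPos]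
      rw [this, h1, t10_shift_rev]; abel
    · simp [stepPos, hi]

theorem t10_reach_rev (L : List (Move × ι)) : ∀ pos : ι → E3 → E3, PlanOK B pos L →
    Reach B (runPlan pos L) pos := by
  induction L with
  | nil => intro pos _; exact Reach.refl _
  | cons ma L ih =>
    intro pos h
    have h1 := ih _ h.2
    obtain ⟨h2, h3⟩ := t10_step_rev h.1
    have h4 : Reach B (stepPos pos ma.1 ma.2) pos :=
      ⟨[(ma.1.rev, ma.2)], ⟨h2, trivial⟩, fun i x _ => by
        show stepPos (stepPos pos ma.1 ma.2) ma.1.rev ma.2 i x = pos i x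
        rw [h3]⟩
    exact h1.trans h4

/-- every move can be undone (same box, `α β ↦ -α -β`) -/
theorem Reach.symm {pos₁ pos₂ : ι → E3 → E3} (h : Reach B pos₁ pos₂) : Reach B pos₂ pos₁ := by
  obtain ⟨L, hL, hf⟩ := h
  exact (t10_reach_rev L pos₁ hL).congr_left hf

theorem t10_reach_single {pos : ι → E3 → E3} {m : Move} {a : ι} (hs : StepOK B pos m a) :
    Reach B pos (stepPos pos m a) := ⟨[(m, a)], ⟨hs, trivial⟩, fun _ _ _ => rfl⟩

end general


/-- centred elementary shear -/
noncomputable def shearMap (cc : Fin 3 → ℚ) (j l : Fin 3) (β : ℚ) (p : E3) : E3 :=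
  p + Pi.single j ((β : ℝ) * (p l - (cc l : ℝ)))

noncomputable def applyShears (cc : Fin 3 → ℚ) : List (Fin 3 × Fin 3 × ℚ) → E3 → E3
  | [], p => p
  | s :: S, p => applyShears cc S (shearMap cc s.1 s.2.1 s.2.2 p)

def shearFac : List (Fin 3 × Fin 3 × ℚ) → ℚ
  | [] => 1
  | s :: S => (1 + |s.2.2|) * shearFac S

theorem t10_shearMap_same (cc : Fin 3 → ℚ) (j l : Fin 3) (β : ℚ) (p : E3) :
    shearMap cc j l β p j = p j + (β : ℝ) * (p l - (cc l : ℝ)) := by
  simp [shearMap]

theorem t10_shearMap_ne (cc : Fin 3 → ℚ) (j l : Fin 3) (β : ℚ) (p : E3) {e : Fin 3} (he : e ≠ j) :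
    shearMap cc j l β p e = p e := by
  simp [shearMap, Pi.single_eq_of_ne he]

def sixShears (j l : Fin 3) (lam : ℚ) : List (Fin 3 × Fin 3 × ℚ) :=
  [(j, l, -1), (l, j, 1), (j, l, -1), (j, l, lam), (l, j, -(1 / lam)), (j, l, lam)]

theorem t10_six (cc : Fin 3 → ℚ) (j l : Fin 3) (hjl : j ≠ l) (lam : ℚ) (hlam : lam ≠ 0) (p : E3) :
    applyShears cc (sixShears j l lam) p = fun e =>
      if e = j then (cc j : ℝ) + (lam : ℝ) * (p j - cc j)
      else if e = l then (cc l : ℝ) + (p l - cc l) / (lam : ℝ) else p e := by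
  have hl : (lam : ℝ) ≠ 0 := by exact_mod_cast hlam
  funext e
  simp only [sixShears, applyShears]
  by_cases hej : e = j
  · subst hej
    simp only [if_true, t10_shearMap_same, t10_shearMap_ne _ _ _ _ _ hjl, t10_shearMap_ne _ _ _ _ _ hjl.symm]
    push_cast
    field_simp
    ring
  · by_cases hel : e = l
    · subst hel
      simp only [hej, if_false, if_true, t10_shearMap_same, t10_shearMap_ne _ _ _ _ _ hjl,
        t10_shearMap_ne _ _ _ _ _ hjl.symm]
      push_cast
      field_simp
      ring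
    · simp only [hej, hel, if_false, t10_shearMap_ne _ _ _ _ _ hej, t10_shearMap_ne _ _ _ _ _ hel]


section shears
variable {ι : Type} [DecidableEq ι] {B : ι → Set E3}

/-- apply `f` to body `a` -/
noncomputable def updPos (pos : ι → E3 → E3) (a : ι) (f : E3 → E3) : ι → E3 → E3 :=
  fun i x => if i = a then f (pos i x) else pos i x

theorem t10_shearFac_one_le (S : List (Fin 3 × Fin 3 × ℚ)) : 1 ≤ shearFac S := by
  induction S with
  | nil => exact le_refl _
  | cons s S ih =>
    have : (0 : ℚ) ≤ |s.2.2| := abs_nonneg _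
    simp only [shearFac]
    nlinarith

theorem t10_shear_bound (cc : Fin 3 → ℚ) (j l : Fin 3) (β ρ0 : ℚ) (p : E3)
    (hp : ∀ e, |p e - (cc e : ℝ)| ≤ (ρ0 : ℝ)) (τ : ℝ) (hτ : τ ∈ Set.Icc (0 : ℝ) 1) (e : Fin 3) :
    |(p + τ • (Pi.single j ((β : ℝ) * (p l - (cc l : ℝ))) : E3)) e - (cc e : ℝ)|
      ≤ (((1 + |β|) * ρ0 : ℚ) : ℝ) := by
  have h0 : (0 : ℝ) ≤ (ρ0 : ℝ) := le_trans (abs_nonneg _) (hp j)
  have hβ : (0 : ℝ) ≤ |(β : ℝ)| := abs_nonneg _
  push_cast
  by_cases he : e = j
  · subst he
    simp only [Pi.add_apply, Pi.smul_apply, Pi.single_eq_same, smul_eq_mul]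
    have h1 : |τ * ((β : ℝ) * (p l - (cc l : ℝ)))| ≤ |(β : ℝ)| * (ρ0 : ℝ) := by
      rw [abs_mul, abs_mul, abs_of_nonneg hτ.1]
      have h2 := hp l
      have h3 : |(β : ℝ)| * |p l - (cc l : ℝ)| ≤ |(β : ℝ)| * (ρ0 : ℝ) :=
        mul_le_mul_of_nonneg_left h2 hβ
      have h4 : 0 ≤ |(β : ℝ)| * |p l - (cc l : ℝ)| := mul_nonneg hβ (abs_nonneg _)
      nlinarith [hτ.2]
    have h5 : p e + τ * ((β : ℝ) * (p l - (cc l : ℝ))) - (cc e : ℝ)
        = (p e - (cc e : ℝ)) + τ * ((β : ℝ) * (p l - (cc l : ℝ))) := by ring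
    rw [h5]
    calc _ ≤ |p e - (cc e : ℝ)| + |τ * ((β : ℝ) * (p l - (cc l : ℝ)))| := abs_add_le _ _
      _ ≤ (ρ0 : ℝ) + |(β : ℝ)| * (ρ0 : ℝ) := add_le_add (hp e) h1
      _ = (1 + |(β : ℝ)|) * (ρ0 : ℝ) := by ring
  · simp only [Pi.add_apply, Pi.smul_apply, Pi.single_eq_of_ne he, smul_eq_mul, mul_zero, add_zero]
    calc _ ≤ (ρ0 : ℝ) := hp e
      _ ≤ (1 + |(β : ℝ)|) * (ρ0 : ℝ) := by nlinarith

theorem t10_reach_shear (pos : ι → E3 → E3) (a : ι) (cc : Fin 3 → ℚ) (j l : Fin 3) (hjl : j ≠ l)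
    (β ρ0 ρ w : ℚ) (hw : 0 < w)
    (hne : (B a).Nonempty)
    (hin : ∀ x ∈ B a, ∀ e, |pos a x e - (cc e : ℝ)| ≤ (ρ0 : ℝ)) (hρ : (1 + |β|) * ρ0 ≤ ρ)
    (hout : ∀ i, i ≠ a → ∀ x ∈ B i, ∃ e, pos i x e < (cc e : ℝ) - ρ - 2 * w ∨
      (cc e : ℝ) + ρ + 2 * w < pos i x e) :
    Reach B pos (updPos pos a (shearMap cc j l β)) := by
  obtain ⟨x0, hx0⟩ := hne
  have hρ0 : (0 : ℚ) ≤ ρ0 := by
    have : (0 : ℝ) ≤ (ρ0 : ℝ) := le_trans (abs_nonneg _) (hin x0 hx0 j)
    exact_mod_cast this
  have hρ' : 0 ≤ ρ := by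
    have : (0 : ℚ) ≤ |β| := abs_nonneg _
    nlinarith
  let m : Move :=
    { j := j, l := l, hjl := hjl, α := -(β * cc l), β := β
      lo := fun e => cc e - ρ, hi := fun e => cc e + ρ, w := w, hw := hw
      hlh := by intro e; linarith }
  have hshift : ∀ p : E3, m.shift p = Pi.single j ((β : ℝ) * (p l - (cc l : ℝ))) := by
    intro p
    simp only [Move.shift, m]
    congr 1
    push_cast
    ring
  have hstep : StepOK B pos m a := by
    refine ⟨fun x hx τ hτ e => ?_, fun i hi x hx => ?_⟩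
    · rw [hshift]
      have h1 := t10_shear_bound cc j l β ρ0 (pos a x) (hin x hx) τ hτ e
      have h2 : (((1 + |β|) * ρ0 : ℚ) : ℝ) ≤ (ρ : ℝ) := by exact_mod_cast hρ
      have h3 := abs_le.mp (le_trans h1 h2)
      simp only [m]
      push_cast
      constructor <;> linarith [h3.1, h3.2]
    · obtain ⟨e, he⟩ := hout i hi x hx
      refine ⟨e, ?_⟩
      simp only [m]
      push_cast
      rcases he with he | he
      · left; linarith
      · right; linarith
  refine (t10_reach_single hstep).congr_right ?_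
  intro i x _
  by_cases hi : i = a
  · subst hi
    simp only [stepPos, updPos, if_true, hshift, shearMap]
  · simp only [stepPos, updPos, hi, if_false]

theorem t10_reach_shears (a : ι) (cc : Fin 3 → ℚ) (ρ w : ℚ) (hw : 0 < w) (hne : (B a).Nonempty)
    (S : List (Fin 3 × Fin 3 × ℚ)) : (∀ s ∈ S, s.1 ≠ s.2.1) → ∀ (pos : ι → E3 → E3) (ρ0 : ℚ),
    (∀ x ∈ B a, ∀ e, |pos a x e - (cc e : ℝ)| ≤ (ρ0 : ℝ)) → shearFac S * ρ0 ≤ ρ →
    (∀ i, i ≠ a → ∀ x ∈ B i, ∃ e, pos i x e < (cc e : ℝ) - ρ - 2 * w ∨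
      (cc e : ℝ) + ρ + 2 * w < pos i x e) →
    Reach B pos (updPos pos a (applyShears cc S)) := by
  induction S with
  | nil =>
    intro _ pos ρ0 _ _ _
    refine (Reach.refl pos).congr_right ?_
    intro i x _
    by_cases hi : i = a <;> simp [updPos, applyShears, hi]
  | cons s S ih =>
    intro hS pos ρ0 hin hρ hout
    obtain ⟨x0, hx0⟩ := hne
    have hρ0 : (0 : ℚ) ≤ ρ0 := by
      have : (0 : ℝ) ≤ (ρ0 : ℝ) := le_trans (abs_nonneg _) (hin x0 hx0 0)
      exact_mod_cast this
    have hfac := t10_shearFac_one_le S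
    have habs : (0 : ℚ) ≤ |s.2.2| := abs_nonneg _
    have h1 : (1 + |s.2.2|) * ρ0 ≤ ρ := by
      have h2 : (1 + |s.2.2|) * ρ0 ≤ (1 + |s.2.2|) * shearFac S * ρ0 := by
        have : 0 ≤ (1 + |s.2.2|) * ρ0 := by positivity
        nlinarith
      exact le_trans h2 hρ
    have hr1 := t10_reach_shear pos a cc s.1 s.2.1 (hS s (List.mem_cons_self)) s.2.2 ρ0 ρ w hw
      ⟨x0, hx0⟩ hin h1 hout
    have hr2 := ih (fun t ht => hS t (List.mem_cons_of_mem _ ht))
      (updPos pos a (shearMap cc s.1 s.2.1 s.2.2)) ((1 + |s.2.2|) * ρ0) ?_ ?_ ?_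
    · refine (hr1.trans hr2).congr_right ?_
      intro i x _
      by_cases hi : i = a <;> simp [updPos, applyShears, hi]
    · intro x hx e
      have := t10_shear_bound cc s.1 s.2.1 s.2.2 ρ0 (pos a x) (hin x hx) 1 ⟨zero_le_one, le_refl _⟩ e
      simpa [updPos, shearMap] using this
    · calc shearFac S * ((1 + |s.2.2|) * ρ0) = (1 + |s.2.2|) * shearFac S * ρ0 := by ring
        _ ≤ ρ := hρ
    · intro i hi x hx
      simpa [updPos, hi] using hout i hi x hx

theorem t10_applyShears_append (cc : Fin 3 → ℚ) (S T : List (Fin 3 × Fin 3 × ℚ)) : ∀ p : E3,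
    applyShears cc (S ++ T) p = applyShears cc T (applyShears cc S p) := by
  induction S with
  | nil => intro p; rfl
  | cons s S ih => intro p; exact ih _

end shears

variable {n : ℕ}

theorem t10_boxPos_mem (a h c r : Fin n → Fin 3 → ℚ) (hh : ∀ i j, 0 < h i j) (hr : ∀ i j, 0 < r i j)
    (i : Fin n) (x : E3) (hx : x ∈ box (a i) (h i)) (e : Fin 3) :
    |boxPos a h c r i x e - (c i e : ℝ)| ≤ (r i e : ℝ) := by
  have h1 : |x e - (a i e : ℝ)| ≤ (h i e : ℝ) := hx e
  have hh' : (0 : ℝ) < (h i e : ℝ) := by exact_mod_cast hh i e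
  have hr' : (0 : ℝ) < (r i e : ℝ) := by exact_mod_cast hr i e
  simp only [boxPos, add_sub_cancel_left, Rat.cast_div]
  rw [abs_mul, abs_of_pos (div_pos hr' hh')]
  calc (r i e : ℝ) / (h i e : ℝ) * |x e - (a i e : ℝ)| ≤ (r i e : ℝ) / (h i e : ℝ) * (h i e : ℝ) := by
        exact mul_le_mul_of_nonneg_left h1 (div_pos hr' hh').le
    _ = (r i e : ℝ) := by field_simp

/-- Translate box `i` along axis `j` so that the `j`-th coordinate of its centre becomes `y`, provided
every other box is separated (by more than `2w`, in some coordinate `e`) from the swept box. -/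
theorem reach_translate (a h c r : Fin n → Fin 3 → ℚ) (hh : ∀ i j, 0 < h i j) (hr : ∀ i j, 0 < r i j)
    (i : Fin n) (j : Fin 3) (y w : ℚ) (hw : 0 < w)
    (hsep : ∀ i', i' ≠ i → ∃ e : Fin 3,
      (c i' e + r i' e < (if e = j then min (c i j) y else c i e) - r i e - 2 * w) ∨
      ((if e = j then max (c i j) y else c i e) + r i e + 2 * w < c i' e - r i' e)) :
    Reach (fun i => box (a i) (h i)) (boxPos a h c r)
      (boxPos a h (Function.update c i (Function.update (c i) j y)) r) := by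
  obtain ⟨l, hl⟩ := exists_ne j
  let m : Move :=
    { j := j, l := l, hjl := hl.symm, α := y - c i j, β := 0
      lo := fun e => (if e = j then min (c i j) y else c i e) - r i e
      hi := fun e => (if e = j then max (c i j) y else c i e) + r i e
      w := w, hw := hw
      hlh := by
        intro e
        have := hr i e
        by_cases he : e = j
        · simp only [he, if_true]
          have : min (c i j) y ≤ max (c i j) y := min_le_max
          have := hr i j
          linarith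
        · simp only [he, if_false]; linarith }
  have hshift : ∀ p : E3, m.shift p = Pi.single j ((y : ℝ) - (c i j : ℝ)) := by
    intro p; simp [Move.shift, m]
  have hstep : StepOK (fun i => box (a i) (h i)) (boxPos a h c r) m i := by
    refine ⟨fun x hx τ hτ e => ?_, fun i' hi' x hx => ?_⟩
    · have hb := abs_le.mp (t10_boxPos_mem a h c r hh hr i x hx e)
      rw [hshift]
      by_cases he : e = j
      · subst he
        simp only [m, if_true, Pi.add_apply, Pi.smul_apply, Pi.single_eq_same, smul_eq_mul,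
          Rat.cast_sub, Rat.cast_add, Rat.cast_min, Rat.cast_max]
        have h0 := hτ.1
        have h1 := hτ.2
        rcases le_total (c i e : ℝ) (y : ℝ) with hcy | hcy
        · rw [min_eq_left hcy, max_eq_right hcy]
          constructor <;> nlinarith
        · rw [min_eq_right hcy, max_eq_left hcy]
          constructor <;> nlinarith
      · simp only [m, he, if_false, Pi.add_apply, Pi.smul_apply, Pi.single_eq_of_ne he, smul_eq_mul,
          mul_zero, add_zero, Rat.cast_sub, Rat.cast_add]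
        constructor <;> linarith
    · obtain ⟨e, he⟩ := hsep i' hi'
      have hb := abs_le.mp (t10_boxPos_mem a h c r hh hr i' x hx e)
      refine ⟨e, ?_⟩
      rcases he with he | he
      · left
        have he' : ((c i' e + r i' e : ℚ) : ℝ) <
            (((if e = j then min (c i j) y else c i e) - r i e - 2 * w : ℚ) : ℝ) := by
          exact_mod_cast he
        simp only [m]
        push_cast at he' ⊢
        linarith
      · right
        have he' : (((if e = j then max (c i j) y else c i e) + r i e + 2 * w : ℚ) : ℝ) <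
            ((c i' e - r i' e : ℚ) : ℝ) := by
          exact_mod_cast he
        simp only [m]
        push_cast at he' ⊢
        linarith
  refine (t10_reach_single hstep).congr_right ?_
  intro i' x _
  funext e
  by_cases hi' : i' = i
  · subst hi'
    simp only [stepPos, if_true, hshift, Pi.add_apply, boxPos, Function.update_self]
    by_cases he : e = j
    · subst he
      simp only [Pi.single_eq_same, Function.update_self]
      ring
    · simp only [Pi.single_eq_of_ne he, Function.update_of_ne he, add_zero]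
  · simp only [stepPos, hi', if_false, boxPos, Function.update_of_ne hi']


/-- a radius containing all intermediate shapes while a box with half-widths `r` is reshaped into one
with half-widths `r'` (the owner of this file may change the definition; it is opaque to users) -/
def reshapeRadius (r r' : Fin 3 → ℚ) : ℚ :=
  (r 0 + r 1 + r 2) *
    ((2 * 2 * 2 * (1 + r' 0 / r 0) * (1 + r 0 / r' 0) * (1 + r' 0 / r 0)) *
     (2 * 2 * 2 * (1 + r 2 / r' 2) * (1 + r' 2 / r 2) * (1 + r 2 / r' 2)))

/-- Reshape box `i` in place (same centre, same volume), provided every other box is separated (in some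
coordinate) from the cube of radius `ρ ≥ reshapeRadius` around its centre. -/
theorem reach_reshape (a h c r : Fin n → Fin 3 → ℚ) (hh : ∀ i j, 0 < h i j) (hr : ∀ i j, 0 < r i j)
    (i : Fin n) (r' : Fin 3 → ℚ) (hr' : ∀ j, 0 < r' j) (hvol : ∏ j, r' j = ∏ j, r i j)
    (ρ w : ℚ) (hw : 0 < w) (hρ : reshapeRadius (r i) r' ≤ ρ)
    (hsep : ∀ i', i' ≠ i → ∃ e : Fin 3,
      (c i' e + r i' e < c i e - ρ - 2 * w) ∨ (c i e + ρ + 2 * w < c i' e - r i' e)) :
    Reach (fun i => box (a i) (h i)) (boxPos a h c r) (boxPos a h c (Function.update r i r')) := by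
  set lam : ℚ := r' 0 / r i 0 with hlam
  set mu : ℚ := r i 2 / r' 2 with hmu
  have hlam0 : 0 < lam := div_pos (hr' 0) (hr i 0)
  have hmu0 : 0 < mu := div_pos (hr i 2) (hr' 2)
  set S := sixShears 0 1 lam ++ sixShears 1 2 mu with hS
  have hne : (box (a i) (h i)).Nonempty :=
    ⟨fun j => (a i j : ℝ), fun j => by
      have : (0 : ℝ) < (h i j : ℝ) := by exact_mod_cast hh i j
      simpa using this.le⟩
  have hfac : shearFac S * (r i 0 + r i 1 + r i 2) = reshapeRadius (r i) r' := by
    have e1 : |lam| = lam := abs_of_pos hlam0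
    have e2 : |mu| = mu := abs_of_pos hmu0
    have e3 : |(-(1 / lam))| = r i 0 / r' 0 := by
      rw [abs_neg, abs_of_pos (by positivity), hlam, one_div_div]
    have e4 : |(-(1 / mu))| = r' 2 / r i 2 := by
      rw [abs_neg, abs_of_pos (by positivity), hmu, one_div_div]
    simp only [hS, sixShears, List.cons_append, List.nil_append, shearFac, e1, e2, e3, e4, abs_neg,
      abs_one, reshapeRadius]
    ring
  have hreach := t10_reach_shears (B := fun i => box (a i) (h i)) i (c i) ρ w hw hne S ?_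
    (boxPos a h c r) (r i 0 + r i 1 + r i 2) ?_ (by rw [hfac]; exact hρ) ?_
  · refine hreach.congr_right ?_
    intro i' x _
    by_cases hi' : i' = i
    · subst hi'
      have hl : (lam : ℝ) = (r' 0 : ℝ) / (r i' 0 : ℝ) := by rw [hlam]; push_cast; rfl
      have hm : (mu : ℝ) = (r i' 2 : ℝ) / (r' 2 : ℝ) := by rw [hmu]; push_cast; rfl
      have hv : (r' 0 : ℝ) * (r' 1 : ℝ) * (r' 2 : ℝ) = (r i' 0 : ℝ) * (r i' 1 : ℝ) * (r i' 2 : ℝ) := by
        have := hvol
        rw [Fin.prod_univ_three, Fin.prod_univ_three] at this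
        exact_mod_cast this
      have p0 : (0 : ℝ) < (r i' 0 : ℝ) := by exact_mod_cast hr i' 0
      have p1 : (0 : ℝ) < (r i' 1 : ℝ) := by exact_mod_cast hr i' 1
      have p2 : (0 : ℝ) < (r i' 2 : ℝ) := by exact_mod_cast hr i' 2
      have q0 : (0 : ℝ) < (r' 0 : ℝ) := by exact_mod_cast hr' 0
      have q1 : (0 : ℝ) < (r' 1 : ℝ) := by exact_mod_cast hr' 1
      have q2 : (0 : ℝ) < (r' 2 : ℝ) := by exact_mod_cast hr' 2
      have g0 : (0 : ℝ) < (h i' 0 : ℝ) := by exact_mod_cast hh i' 0
      have g1 : (0 : ℝ) < (h i' 1 : ℝ) := by exact_mod_cast hh i' 1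
      have g2 : (0 : ℝ) < (h i' 2 : ℝ) := by exact_mod_cast hh i' 2
      simp only [updPos, if_true, hS, t10_applyShears_append]
      rw [t10_six (c i') 0 1 (by decide) lam hlam0.ne', t10_six (c i') 1 2 (by decide) mu hmu0.ne']
      funext e
      fin_cases e
      · simp [boxPos, hl]
        field_simp
      · simp [boxPos, hl, hm]
        field_simp
        have : (r' 1 : ℝ) = (r i' 0 : ℝ) * (r i' 1 : ℝ) * (r i' 2 : ℝ) / ((r' 0 : ℝ) * (r' 2 : ℝ)) := by
          field_simp; linarith
        rw [this]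
        field_simp
      · simp [boxPos, hm]
        field_simp
    · simp only [updPos, hi', if_false]
      funext e
      simp only [boxPos, Function.update_of_ne hi']
  · intro s hs
    simp only [hS, sixShears, List.cons_append, List.nil_append, List.mem_cons, List.not_mem_nil,
      or_false] at hs
    rcases hs with h | h | h | h | h | h | h | h | h | h | h | h <;> subst h <;> simp
  · intro x hx e
    have h1 := t10_boxPos_mem a h c r hh hr i x hx e
    have p0 : (0 : ℝ) < (r i 0 : ℝ) := by exact_mod_cast hr i 0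
    have p1 : (0 : ℝ) < (r i 1 : ℝ) := by exact_mod_cast hr i 1
    have p2 : (0 : ℝ) < (r i 2 : ℝ) := by exact_mod_cast hr i 2
    refine le_trans h1 ?_
    push_cast
    fin_cases e <;> simp <;> linarith
  · intro i' hi' x hx
    obtain ⟨e, he⟩ := hsep i' hi'
    have hb := abs_le.mp (t10_boxPos_mem a h c r hh hr i' x hx e)
    refine ⟨e, ?_⟩
    rcases he with he | he
    · left
      have he' : ((c i' e + r i' e : ℚ) : ℝ) < ((c i e - ρ - 2 * w : ℚ) : ℝ) := by exact_mod_cast he
      push_cast at he'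
      linarith
    · right
      have he' : ((c i e + ρ + 2 * w : ℚ) : ℝ) < ((c i' e - r i' e : ℚ) : ℝ) := by exact_mod_cast he
      push_cast at he'
      linarith

end Crest.Agent.BoxFlow
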