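/-
S0170 team project, task T11: the motion plan (all reasoning on rational parameters of box states).
Only `plan_exists` is the interface; the intermediate statements are suggestions.
-/
import Crest.Agent.BoxFlow.PlanBasic

set_option autoImplicit false
open Crest.AnalysisR.BoxFlow

namespace Crest.Agent.BoxFlow

variable {n : ℕ}

/-- boxes `i ≠ i'` of the box state `(c, r)` are separated in coordinate `e` by more than `g` -/
def SepAt (c r : Fin n → Fin 3 → ℚ) (g : ℚ) (e : Fin 3) (i i' : Fin n) : Prop :=
  c i e + r i e + g < c i' e - r i' e ∨ c i' e + r i' e + g < c i e - r i e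

theorem SepAt.symm {c r : Fin n → Fin 3 → ℚ} {g : ℚ} {e : Fin 3} {i i' : Fin n}
    (h : SepAt c r g e i i') : SepAt c r g e i' i := Or.symm h

theorem SepAt.congr {c c' r r' : Fin n → Fin 3 → ℚ} {g : ℚ} {e : Fin 3} {i i' : Fin n}
    (h : SepAt c r g e i i') (h1 : c' i e = c i e) (h2 : c' i' e = c i' e)
    (h3 : r' i e = r i e) (h4 : r' i' e = r i' e) : SepAt c' r' g e i i' := by
  unfold SepAt at *
  rw [h1, h2, h3, h4]
  exact h

/-- disjoint closed rational boxes are separated in some coordinate -/
theorem exists_sep_of_disjoint {c c' r r' : Fin 3 → ℚ} (hr : ∀ j, 0 < r j) (hr' : ∀ j, 0 < r' j)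
    (hd : Disjoint (box c r) (box c' r')) :
    ∃ e, c e + r e < c' e - r' e ∨ c' e + r' e < c e - r e := by
  by_contra hcon
  simp only [not_exists, not_or, not_lt] at hcon
  have hx : (fun j => ((max (c j - r j) (c' j - r' j) : ℚ) : ℝ)) ∈ box c r ∩ box c' r' := by
    constructor
    · intro j
      have h1 : |max (c j - r j) (c' j - r' j) - c j| ≤ r j := by
        rw [abs_le]
        constructor
        · have := le_max_left (c j - r j) (c' j - r' j)
          linarith
        · have : max (c j - r j) (c' j - r' j) ≤ c j + r j :=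
            max_le (by linarith [hr j]) (by linarith [(hcon j).1])
          linarith
      show |((max (c j - r j) (c' j - r' j) : ℚ) : ℝ) - (c j : ℝ)| ≤ (r j : ℝ)
      exact_mod_cast h1
    · intro j
      have h1 : |max (c j - r j) (c' j - r' j) - c' j| ≤ r' j := by
        rw [abs_le]
        constructor
        · have := le_max_right (c j - r j) (c' j - r' j)
          linarith
        · have : max (c j - r j) (c' j - r' j) ≤ c' j + r' j :=
            max_le (by linarith [(hcon j).2]) (by linarith [hr' j])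
          linarith
      show |((max (c j - r j) (c' j - r' j) : ℚ) : ℝ) - (c' j : ℝ)| ≤ (r' j : ℝ)
      exact_mod_cast h1
  exact (Set.disjoint_iff.mp hd) hx

/-- boxes separated in some coordinate are disjoint -/
theorem disjoint_of_sep {c c' r r' : Fin 3 → ℚ} (e : Fin 3)
    (hs : c e + r e < c' e - r' e ∨ c' e + r' e < c e - r e) :
    Disjoint (box c r) (box c' r') := by
  rw [Set.disjoint_iff]
  rintro x ⟨h1, h2⟩
  have h1' := abs_le.mp (h1 e)
  have h2' := abs_le.mp (h2 e)
  rcases hs with hs | hs
  · have hs' : (c e : ℝ) + r e < c' e - r' e := by exact_mod_cast hs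
    linarith [h1'.1, h1'.2, h2'.1, h2'.2]
  · have hs' : (c' e : ℝ) + r' e < c e - r e := by exact_mod_cast hs
    linarith [h1'.1, h1'.2, h2'.1, h2'.2]

/-- one axis translation of box `i`, all the other boxes being separated from it in coordinate `e`
(which is not changed) -/
theorem reach_translate_sep (a h c r : Fin n → Fin 3 → ℚ) (hh : ∀ i j, 0 < h i j)
    (hr : ∀ i j, 0 < r i j) (e : Fin 3) (w : ℚ) (hw : 0 < w) (i : Fin n) (j : Fin 3) (y : ℚ)
    (hy : e = j → y = c i j)
    (hsep : ∀ i', i' ≠ i → SepAt c r (2 * w) e i i') :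
    Reach (fun i => box (a i) (h i)) (boxPos a h c r)
      (boxPos a h (Function.update c i (Function.update (c i) j y)) r) := by
  apply reach_translate a h c r hh hr i j y w hw
  intro i' hi'
  refine ⟨e, ?_⟩
  rcases hsep i' hi' with h1 | h1
  · right
    by_cases hej : e = j
    · rw [if_pos hej, hy hej, max_self]
      subst hej
      linarith
    · rw [if_neg hej]
      linarith
  · left
    by_cases hej : e = j
    · rw [if_pos hej, hy hej, min_self]
      subst hej
      linarith
    · rw [if_neg hej]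
      linarith

/-- move box `i` to a new centre `v` with the same `e`-coordinate, all the other boxes being separated
from it in coordinate `e` -/
theorem reach_move_one (a h c r : Fin n → Fin 3 → ℚ) (hh : ∀ i j, 0 < h i j)
    (hr : ∀ i j, 0 < r i j) (e : Fin 3) (w : ℚ) (hw : 0 < w) (i : Fin n) (v : Fin 3 → ℚ)
    (hv : v e = c i e)
    (hsep : ∀ i', i' ≠ i → SepAt c r (2 * w) e i i') :
    Reach (fun i => box (a i) (h i)) (boxPos a h c r) (boxPos a h (Function.update c i v) r) := by
  set c1 := Function.update c i (Function.update (c i) 0 (v 0)) with hc1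
  set c2 := Function.update c1 i (Function.update (c1 i) 1 (v 1)) with hc2
  set c3 := Function.update c2 i (Function.update (c2 i) 2 (v 2)) with hc3
  have e1 : ∀ i', i' ≠ i → c1 i' = c i' := fun i' hi' => by rw [hc1, Function.update_of_ne hi']
  have e2 : ∀ i', i' ≠ i → c2 i' = c i' := fun i' hi' => by
    rw [hc2, Function.update_of_ne hi', e1 i' hi']
  have f1 : c1 i = Function.update (c i) 0 (v 0) := by rw [hc1, Function.update_self]
  have f2 : c2 i = Function.update (c1 i) 1 (v 1) := by rw [hc2, Function.update_self]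
  have g1 : c1 i e = c i e := by
    rw [f1]
    by_cases he : e = 0
    · subst he; rw [Function.update_self, hv]
    · rw [Function.update_of_ne he]
  have g2 : c2 i e = c i e := by
    rw [f2]
    by_cases he : e = 1
    · subst he; rw [Function.update_self, hv]
    · rw [Function.update_of_ne he, g1]
  have s1 : ∀ i', i' ≠ i → SepAt c1 r (2 * w) e i i' := fun i' hi' =>
    (hsep i' hi').congr g1 (by rw [e1 i' hi']) rfl rfl
  have s2 : ∀ i', i' ≠ i → SepAt c2 r (2 * w) e i i' := fun i' hi' =>
    (hsep i' hi').congr g2 (by rw [e2 i' hi']) rfl rfl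
  have r1 := reach_translate_sep a h c r hh hr e w hw i 0 (v 0) (fun he => by rw [← he, hv]) hsep
  have r2 := reach_translate_sep a h c1 r hh hr e w hw i 1 (v 1)
    (fun he => by rw [← he, hv, g1]) s1
  have r3 := reach_translate_sep a h c2 r hh hr e w hw i 2 (v 2)
    (fun he => by rw [← he, hv, g2]) s2
  have hfin : c3 = Function.update c i v := by
    funext i'
    by_cases hi' : i' = i
    · subst hi'
      rw [hc3, Function.update_self, Function.update_self, f2, f1]
      funext j
      fin_cases j <;> simp [Function.update]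
    · rw [hc3, Function.update_of_ne hi', e2 i' hi', Function.update_of_ne hi']
  rw [← hfin]
  exact (r1.trans r2).trans r3

/-- Lemma S: if all boxes are pairwise separated in the single coordinate `e`, the other coordinates of
the centres can be changed arbitrarily. -/
theorem reach_of_sepAt (a h c c' r : Fin n → Fin 3 → ℚ) (hh : ∀ i j, 0 < h i j)
    (hr : ∀ i j, 0 < r i j) (e : Fin 3) (w : ℚ) (hw : 0 < w)
    (hsep : ∀ i i', i ≠ i' → SepAt c r (2 * w) e i i') (hc : ∀ i, c' i e = c i e) :
    Reach (fun i => box (a i) (h i)) (boxPos a h c r) (boxPos a h c' r) := by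
  classical
  have key : ∀ S : Finset (Fin n), Reach (fun i => box (a i) (h i)) (boxPos a h c r)
      (boxPos a h (fun i => if i ∈ S then c' i else c i) r) := by
    intro S
    induction S using Finset.induction_on with
    | empty => simpa using Reach.refl (B := fun i => box (a i) (h i)) (boxPos a h c r)
    | insert i S hi ih =>
      have hce : ∀ i', (fun i => if i ∈ S then c' i else c i) i' e = c i' e := by
        intro i'
        by_cases h' : i' ∈ S
        · simp [h', hc]
        · simp [h']
      have step := reach_move_one a h (fun i => if i ∈ S then c' i else c i) r hh hr e w hw i (c' i)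
        (by rw [hc]; exact (hce i).symm)
        (fun i' hi' => (hsep i i' (Ne.symm hi')).congr (hce i) (hce i') rfl rfl)
      have heq : Function.update (fun i => if i ∈ S then c' i else c i) i (c' i)
          = fun i' => if i' ∈ insert i S then c' i' else c i' := by
        funext i'
        by_cases hi' : i' = i
        · subst hi'
          simp
        · rw [Function.update_of_ne hi']
          simp [Finset.mem_insert, hi']
      rw [heq] at step
      exact ih.trans step
  simpa using key Finset.univ

/-- Phase A, inductive form.  `Q` = boxes not yet pulled out; the boxes outside `Q` are parked to the right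
of the abscissa `R`; there is room for `card Q` slots of width `D` between the cluster and `R`. -/
theorem reach_xsep_aux (a h r : Fin n → Fin 3 → ℚ) (hh : ∀ i j, 0 < h i j) (hr : ∀ i j, 0 < r i j)
    (w : ℚ) (hw : 0 < w) (D : ℚ) (hD : ∀ i, 2 * r i 0 + 2 * w < D) :
    ∀ (m : ℕ) (Q : Finset (Fin n)), Q.card = m → ∀ (c : Fin n → Fin 3 → ℚ) (R : ℚ),
      (∀ i ∈ Q, ∀ i' ∈ Q, i ≠ i' → ∃ e, SepAt c r (2 * w) e i i') →
      (∀ i ∈ Q, c i 0 + r i 0 + m * D ≤ R) →
      (∀ i', i' ∉ Q → R + 2 * w < c i' 0 - r i' 0) →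
      (∀ i, i ∉ Q → ∀ i', i' ∉ Q → i ≠ i' → SepAt c r (2 * w) 0 i i') →
      ∃ c' : Fin n → Fin 3 → ℚ, (∀ i i', i ≠ i' → SepAt c' r (2 * w) 0 i i') ∧
        Reach (fun i => box (a i) (h i)) (boxPos a h c r) (boxPos a h c' r) := by
  classical
  intro m
  induction m with
  | zero =>
    intro Q hQ c R _ _ _ h4
    have hQ' : Q = ∅ := Finset.card_eq_zero.mp hQ
    subst hQ'
    exact ⟨c, fun i i' hii' => h4 i (by simp) i' (by simp) hii', Reach.refl _⟩
  | succ m ih =>
    intro Q hQ c R h1 h2 h3 h4
    have hne : Q.Nonempty := by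
      rw [← Finset.card_pos, hQ]; exact Nat.succ_pos m
    obtain ⟨i, hiQ, himax⟩ := Finset.exists_max_image Q (fun i => c i 0 + r i 0) hne
    have hDpos : 0 < D := by
      have := hD i
      have := hr i 0
      linarith
    have hmD : (0 : ℚ) ≤ (m : ℚ) * D := by positivity
    have h2i := h2 i hiQ
    push_cast at h2i
    set y : ℚ := R - r i 0 with hy
    have hcy : c i 0 ≤ y := by
      rw [hy]; nlinarith
    set c1 := Function.update c i (Function.update (c i) 0 y) with hc1
    have e1 : ∀ i', i' ≠ i → c1 i' = c i' := fun i' hi' => by rw [hc1, Function.update_of_ne hi']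
    have f1 : c1 i 0 = y := by rw [hc1, Function.update_self, Function.update_self]
    have step : Reach (fun i => box (a i) (h i)) (boxPos a h c r) (boxPos a h c1 r) := by
      apply reach_translate a h c r hh hr i 0 y w hw
      intro i' hi'
      by_cases hi'Q : i' ∈ Q
      · obtain ⟨e, he⟩ := h1 i hiQ i' hi'Q (Ne.symm hi')
        refine ⟨e, ?_⟩
        by_cases he0 : e = 0
        · subst he0
          rw [if_pos rfl, if_pos rfl, min_eq_left hcy, max_eq_right hcy]
          rcases he with he | he
          · exfalso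
            have := himax i' hi'Q
            have := hr i' 0
            linarith
          · left; linarith
        · rw [if_neg he0, if_neg he0]
          rcases he with he | he
          · right; linarith
          · left; linarith
      · refine ⟨0, Or.inr ?_⟩
        rw [if_pos rfl, max_eq_right hcy]
        have := h3 i' hi'Q
        rw [hy]; linarith
    have hcard : (Q.erase i).card = m := by
      rw [Finset.card_erase_of_mem hiQ, hQ]; rfl
    suffices hsuff : ∃ c' : Fin n → Fin 3 → ℚ, (∀ i i', i ≠ i' → SepAt c' r (2 * w) 0 i i') ∧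
        Reach (fun i => box (a i) (h i)) (boxPos a h c1 r) (boxPos a h c' r) by
      obtain ⟨c', hc', hreach⟩ := hsuff
      exact ⟨c', hc', step.trans hreach⟩
    refine ih (Q.erase i) hcard c1 (R - D) ?_ ?_ ?_ ?_
    · intro i1 hi1 i2 hi2 h12
      obtain ⟨hi1n, hi1Q⟩ := Finset.mem_erase.mp hi1
      obtain ⟨hi2n, hi2Q⟩ := Finset.mem_erase.mp hi2
      obtain ⟨e, he⟩ := h1 i1 hi1Q i2 hi2Q h12
      exact ⟨e, he.congr (by rw [e1 i1 hi1n]) (by rw [e1 i2 hi2n]) rfl rfl⟩
    · intro i1 hi1
      obtain ⟨hi1n, hi1Q⟩ := Finset.mem_erase.mp hi1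
      have := h2 i1 hi1Q
      push_cast at this
      rw [e1 i1 hi1n]
      linarith
    · intro i' hi'
      by_cases hi'i : i' = i
      · subst hi'i
        rw [f1, hy]
        have := hD i'
        linarith
      · have hi'Q : i' ∉ Q := fun hmem => hi' (Finset.mem_erase.mpr ⟨hi'i, hmem⟩)
        have := h3 i' hi'Q
        rw [e1 i' hi'i]
        linarith
    · intro i1 hi1 i2 hi2 h12
      by_cases h1i : i1 = i
      · subst h1i
        have hi2Q : i2 ∉ Q := fun hmem => hi2 (Finset.mem_erase.mpr ⟨Ne.symm h12, hmem⟩)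
        left
        rw [f1, e1 i2 (Ne.symm h12), hy]
        have := h3 i2 hi2Q
        linarith
      · have hi1Q : i1 ∉ Q := fun hmem => hi1 (Finset.mem_erase.mpr ⟨h1i, hmem⟩)
        by_cases h2i' : i2 = i
        · subst h2i'
          right
          rw [f1, e1 i1 h1i, hy]
          have := h3 i1 hi1Q
          linarith
        · have hi2Q : i2 ∉ Q := fun hmem => hi2 (Finset.mem_erase.mpr ⟨h2i', hmem⟩)
          exact (h4 i1 hi1Q i2 hi2Q h12).congr (by rw [e1 i1 h1i]) (by rw [e1 i2 h2i']) rfl rfl

/-- Phase A: pull the boxes apart along the first axis (front-most box first). -/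
theorem reach_xsep (a h c r : Fin n → Fin 3 → ℚ) (hh : ∀ i j, 0 < h i j) (hr : ∀ i j, 0 < r i j)
    (w : ℚ) (hw : 0 < w) (hsep : ∀ i i', i ≠ i' → ∃ e, SepAt c r (2 * w) e i i') :
    ∃ c' : Fin n → Fin 3 → ℚ, (∀ i i', i ≠ i' → SepAt c' r (2 * w) 0 i i') ∧
      Reach (fun i => box (a i) (h i)) (boxPos a h c r) (boxPos a h c' r) := by
  classical
  set D : ℚ := 2 * (∑ i, r i 0) + 2 * w + 1 with hD
  set X : ℚ := ∑ i, (|c i 0| + r i 0) with hX
  have hD' : ∀ i, 2 * r i 0 + 2 * w < D := by
    intro i
    have : r i 0 ≤ ∑ i, r i 0 :=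
      Finset.single_le_sum (f := fun i => r i 0) (fun i _ => (hr i 0).le) (Finset.mem_univ i)
    rw [hD]; linarith
  have hX' : ∀ i, c i 0 + r i 0 ≤ X := by
    intro i
    have h1 : |c i 0| + r i 0 ≤ ∑ i, (|c i 0| + r i 0) :=
      Finset.single_le_sum (f := fun i => |c i 0| + r i 0)
        (fun i _ => add_nonneg (abs_nonneg _) (hr i 0).le) (Finset.mem_univ i)
    have h2 := le_abs_self (c i 0)
    rw [hX]; linarith
  refine reach_xsep_aux a h r hh hr w hw D hD' (Finset.univ : Finset (Fin n)).card Finset.univ rfl c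
    (X + (Finset.univ : Finset (Fin n)).card * D) (fun i _ i' _ hii' => hsep i i' hii') ?_ ?_ ?_
  · intro i _
    have := hX' i
    linarith
  · intro i' hi'
    exact absurd (Finset.mem_univ i') hi'
  · intro i hi
    exact absurd (Finset.mem_univ i) hi

/-- lanes: boxes with centres at ordinates `i * lane` are separated in coordinate `1` -/
theorem lane_sep (lane g : ℚ) (h0 : 0 ≤ lane) (u v : Fin n → ℚ)
    (hlane : ∀ i i', u i + v i' + g < lane) (i i' : Fin n) (hii' : i ≠ i') :
    ((i : ℕ) : ℚ) * lane + u i + g < ((i' : ℕ) : ℚ) * lane - v i' ∨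
      ((i' : ℕ) : ℚ) * lane + v i' + g < ((i : ℕ) : ℚ) * lane - u i := by
  have hl := hlane i i'
  rcases lt_or_gt_of_ne (fun hEq => hii' (Fin.ext hEq) : (i : ℕ) ≠ (i' : ℕ)) with hlt | hlt
  · left
    have h1 : ((i : ℕ) : ℚ) + 1 ≤ ((i' : ℕ) : ℚ) := by exact_mod_cast hlt
    have h2 := mul_le_mul_of_nonneg_right h1 h0
    linarith
  · right
    have h1 : ((i' : ℕ) : ℚ) + 1 ≤ ((i : ℕ) : ℚ) := by exact_mod_cast hlt
    have h2 := mul_le_mul_of_nonneg_right h1 h0
    linarith

/-- every separated box state can be brought to the standard state `c i = (0, i * lane, 0)` -/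
theorem reach_standard (a h c r : Fin n → Fin 3 → ℚ) (hh : ∀ i j, 0 < h i j) (hr : ∀ i j, 0 < r i j)
    (w : ℚ) (hw : 0 < w) (hsep : ∀ i i', i ≠ i' → ∃ e, SepAt c r (2 * w) e i i')
    (lane : ℚ) (hlane : ∀ i i', r i 1 + r i' 1 + 2 * w < lane) :
    Reach (fun i => box (a i) (h i)) (boxPos a h c r)
      (boxPos a h (fun i => ![0, (i : ℕ) * lane, 0]) r) := by
  obtain ⟨c1, hc1, hreach1⟩ := reach_xsep a h c r hh hr w hw hsep
  -- change the second and third coordinates
  have hreach2 := reach_of_sepAt a h c1 (fun i => ![c1 i 0, (i : ℕ) * lane, 0]) r hh hr 0 w hw hc1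
    (fun i => rfl)
  have hsep2 : ∀ i i', i ≠ i' →
      SepAt (fun i : Fin n => ![c1 i 0, ((i : ℕ) : ℚ) * lane, 0]) r (2 * w) 1 i i' := by
    intro i i' hii'
    have h0 : 0 ≤ lane := by
      have := hlane i i'
      have := hr i 1
      have := hr i' 1
      linarith
    exact lane_sep lane (2 * w) h0 (fun i => r i 1) (fun i => r i 1) hlane i i' hii'
  have hreach3 := reach_of_sepAt a h (fun i => ![c1 i 0, (i : ℕ) * lane, 0])
    (fun i => ![0, (i : ℕ) * lane, 0]) r hh hr 1 w hw hsep2 (fun i => rfl)
  exact (hreach1.trans hreach2).trans hreach3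

/-- reshape all the boxes, one after the other, the centres being far apart in coordinate `1` -/
theorem reach_reshape_all (a h C r r' : Fin n → Fin 3 → ℚ) (hh : ∀ i j, 0 < h i j)
    (hr : ∀ i j, 0 < r i j) (hr' : ∀ i j, 0 < r' i j) (hvol : ∀ i, ∏ j, r' i j = ∏ j, r i j)
    (ρ w : ℚ) (hw : 0 < w) (hρ : ∀ i, reshapeRadius (r i) (r' i) ≤ ρ)
    (hsep : ∀ i i', i' ≠ i → (C i' 1 + max (r i' 1) (r' i' 1) < C i 1 - ρ - 2 * w) ∨
      (C i 1 + ρ + 2 * w < C i' 1 - max (r i' 1) (r' i' 1))) :
    Reach (fun i => box (a i) (h i)) (boxPos a h C r) (boxPos a h C r') := by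
  classical
  have key : ∀ S : Finset (Fin n), Reach (fun i => box (a i) (h i)) (boxPos a h C r)
      (boxPos a h C (fun i => if i ∈ S then r' i else r i)) := by
    intro S
    induction S using Finset.induction_on with
    | empty => simpa using Reach.refl (B := fun i => box (a i) (h i)) (boxPos a h C r)
    | insert i S hi ih =>
      have hpos : ∀ i' j, 0 < (fun i => if i ∈ S then r' i else r i) i' j := by
        intro i' j
        by_cases h' : i' ∈ S
        · simp [h', hr']
        · simp [h', hr]
      have hri : (fun i => if i ∈ S then r' i else r i) i = r i := by simp [hi]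
      have hle : ∀ i', (fun i => if i ∈ S then r' i else r i) i' 1 ≤ max (r i' 1) (r' i' 1) := by
        intro i'
        by_cases h' : i' ∈ S
        · simp [h']
        · simp [h']
      have step := reach_reshape a h C (fun i => if i ∈ S then r' i else r i) hh hpos i (r' i) (hr' i)
        (by rw [if_neg hi]; exact hvol i) ρ w hw (by rw [if_neg hi]; exact hρ i)
        (fun i' hi' => ⟨1, by
          rcases hsep i i' hi' with h1 | h1
          · left; have := hle i'; linarith
          · right; have := hle i'; linarith⟩)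
      have heq : Function.update (fun i => if i ∈ S then r' i else r i) i (r' i)
          = fun i' => if i' ∈ insert i S then r' i' else r i' := by
        funext i'
        by_cases hi' : i' = i
        · subst hi'
          simp
        · rw [Function.update_of_ne hi']
          simp [Finset.mem_insert, hi']
      rw [heq] at step
      exact ih.trans step
  simpa using key Finset.univ

/-- a uniform positive threshold for finitely many antitone conditions -/
theorem exists_uniform_pos {ι : Type} [Fintype ι] (P : ι → ℚ → Prop)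
    (hmono : ∀ x t t', t' ≤ t → P x t → P x t') (hex : ∀ x, ∃ t, 0 < t ∧ P x t) :
    ∃ t, 0 < t ∧ ∀ x, P x t := by
  classical
  have key : ∀ S : Finset ι, ∃ t, 0 < t ∧ ∀ x ∈ S, P x t := by
    intro S
    induction S using Finset.induction_on with
    | empty => exact ⟨1, one_pos, fun x hx => absurd hx (Finset.notMem_empty x)⟩
    | insert i S _ ih =>
      obtain ⟨t1, ht1, h1⟩ := ih
      obtain ⟨t2, ht2, h2⟩ := hex i
      refine ⟨min t1 t2, lt_min ht1 ht2, fun x hx => ?_⟩
      rcases Finset.mem_insert.mp hx with hx | hx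
      · subst hx
        exact hmono x t2 _ (min_le_right _ _) h2
      · exact hmono x t1 _ (min_le_left _ _) (h1 x hx)
  obtain ⟨t, ht, h⟩ := key Finset.univ
  exact ⟨t, ht, fun x => h x (Finset.mem_univ x)⟩

theorem SepAt.mono {c r : Fin n → Fin 3 → ℚ} {g g' : ℚ} {e : Fin 3} {i i' : Fin n}
    (h : SepAt c r g e i i') (hg : g' ≤ g) : SepAt c r g' e i i' := by
  rcases h with h | h
  · left; linarith
  · right; linarith

/-- pairwise disjoint boxes have a uniform gap -/
theorem exists_uniform_gap (c r : Fin n → Fin 3 → ℚ) (hr : ∀ i j, 0 < r i j)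
    (hd : Pairwise fun i i' => Disjoint (box (c i) (r i)) (box (c i') (r i'))) :
    ∃ t, 0 < t ∧ ∀ i i', i ≠ i' → ∃ e, SepAt c r t e i i' := by
  obtain ⟨t, ht, h⟩ := exists_uniform_pos (ι := Fin n × Fin n)
    (fun p t => p.1 ≠ p.2 → ∃ e, SepAt c r t e p.1 p.2)
    (fun p t t' htt' hp hne => by
      obtain ⟨e, he⟩ := hp hne
      exact ⟨e, he.mono htt'⟩)
    (fun p => by
      by_cases hne : p.1 = p.2
      · exact ⟨1, one_pos, fun h => absurd hne h⟩
      · obtain ⟨e, he⟩ := exists_sep_of_disjoint (hr p.1) (hr p.2) (hd hne)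
        rcases he with he | he
        · refine ⟨((c p.2 e - r p.2 e) - (c p.1 e + r p.1 e)) / 2, by linarith, fun _ => ⟨e, Or.inl ?_⟩⟩
          linarith
        · refine ⟨((c p.1 e - r p.1 e) - (c p.2 e + r p.2 e)) / 2, by linarith, fun _ => ⟨e, Or.inr ?_⟩⟩
          linarith)
  exact ⟨t, ht, fun i i' hii' => h (i, i') hii'⟩

/-- enlarging the boxes by a factor `1 + δ` keeps a gap -/
theorem SepAt.enlarge {c r : Fin n → Fin 3 → ℚ} {t δ w S : ℚ} {e : Fin 3} {i i' : Fin n}
    (h : SepAt c r t e i i') (hδ : 0 ≤ δ) (hS : ∀ i, r i e ≤ S) (hδS : δ * S ≤ t / 4) (hw : 2 * w ≤ t / 2) :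
    SepAt c (fun i j => (1 + δ) * r i j) (2 * w) e i i' := by
  have h1 : δ * r i e ≤ t / 4 := le_trans (mul_le_mul_of_nonneg_left (hS i) hδ) hδS
  have h2 : δ * r i' e ≤ t / 4 := le_trans (mul_le_mul_of_nonneg_left (hS i') hδ) hδS
  rcases h with h | h
  · left
    show c i e + (1 + δ) * r i e + 2 * w < c i' e - (1 + δ) * r i' e
    linarith
  · right
    show c i' e + (1 + δ) * r i' e + 2 * w < c i e - (1 + δ) * r i e
    linarith

theorem plan_exists (n : ℕ) (a b h k : Fin n → Fin 3 → ℚ)
    (hh : ∀ i j, 0 < h i j) (hk : ∀ i j, 0 < k i j)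
    (ha : Pairwise fun i i' => Disjoint (box (a i) (h i)) (box (a i') (h i')))
    (hb : Pairwise fun i i' => Disjoint (box (b i) (k i)) (box (b i') (k i')))
    (hvol : ∀ i, ∏ j : Fin 3, k i j / h i j = 1) :
    ∃ h' : Fin n → Fin 3 → ℚ, (∀ i j, h i j < h' i j) ∧
      (Pairwise fun i i' => Disjoint (box (a i) (h' i)) (box (a i') (h' i'))) ∧
      ∃ L : List (Move × Fin n), PlanOK (fun i => box (a i) (h' i)) (fun _ => id) L ∧
        ∀ i, ∀ x ∈ box (a i) (h' i), runPlan (fun _ => id) L i x =
          fun j => (b i j : ℝ) + ((k i j / h i j : ℚ) : ℝ) * (x j - (a i j : ℝ)) := by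
  classical
  obtain ⟨ta, hta, hsa⟩ := exists_uniform_gap a h hh ha
  obtain ⟨tb, htb, hsb⟩ := exists_uniform_gap b k hk hb
  set t : ℚ := min ta tb with ht
  have htpos : 0 < t := lt_min hta htb
  set S : ℚ := ∑ i, ∑ e, (h i e + k i e) with hS
  have hSle : ∀ i e, h i e + k i e ≤ S := by
    intro i e
    have h1 : h i e + k i e ≤ ∑ e, (h i e + k i e) :=
      Finset.single_le_sum (f := fun e => h i e + k i e)
        (fun e _ => (add_pos (hh i e) (hk i e)).le) (Finset.mem_univ e)
    have h2 : ∑ e, (h i e + k i e) ≤ ∑ i, ∑ e, (h i e + k i e) :=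
      Finset.single_le_sum (f := fun i => ∑ e, (h i e + k i e))
        (fun i _ => Finset.sum_nonneg fun e _ => (add_pos (hh i e) (hk i e)).le) (Finset.mem_univ i)
    exact h1.trans h2
  have hS0 : 0 ≤ S := Finset.sum_nonneg fun i _ => Finset.sum_nonneg fun e _ =>
    (add_pos (hh i e) (hk i e)).le
  set δ : ℚ := t / (4 * S + 4) with hδ
  have hδpos : 0 < δ := by positivity
  have hδS : δ * S ≤ t / 4 := by
    rw [hδ, div_mul_eq_mul_div, div_le_iff₀ (by positivity)]
    nlinarith
  set w : ℚ := t / 4 with hw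
  have hwpos : 0 < w := by positivity
  set h' : Fin n → Fin 3 → ℚ := fun i j => (1 + δ) * h i j with hh'
  set k' : Fin n → Fin 3 → ℚ := fun i j => (1 + δ) * k i j with hk'
  have hh'pos : ∀ i j, 0 < h' i j := fun i j => mul_pos (by linarith) (hh i j)
  have hk'pos : ∀ i j, 0 < k' i j := fun i j => mul_pos (by linarith) (hk i j)
  have hsa' : ∀ i i', i ≠ i' → ∃ e, SepAt a h' (2 * w) e i i' := by
    intro i i' hii'
    obtain ⟨e, he⟩ := hsa i i' hii'
    exact ⟨e, (he.mono (min_le_left ta tb)).enlarge hδpos.le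
      (fun i => by have := hSle i e; have := hk i e; linarith) hδS (by rw [hw]; linarith)⟩
  have hsb' : ∀ i i', i ≠ i' → ∃ e, SepAt b k' (2 * w) e i i' := by
    intro i i' hii'
    obtain ⟨e, he⟩ := hsb i i' hii'
    exact ⟨e, (he.mono (min_le_right ta tb)).enlarge hδpos.le
      (fun i => by have := hSle i e; have := hh i e; linarith) hδS (by rw [hw]; linarith)⟩
  refine ⟨h', fun i j => ?_, fun i i' hii' => ?_, ?_⟩
  · have := mul_pos hδpos (hh i j)
    show h i j < (1 + δ) * h i j
    linarith
  · obtain ⟨e, he⟩ := hsa' i i' hii'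
    apply disjoint_of_sep e
    rcases he with he | he
    · left; linarith
    · right; linarith
  -- the plan
  set ρ : ℚ := ∑ i, |reshapeRadius (h' i) (k' i)| with hρ
  have hρ0 : 0 ≤ ρ := Finset.sum_nonneg fun i _ => abs_nonneg _
  have hρle : ∀ i, reshapeRadius (h' i) (k' i) ≤ ρ := by
    intro i
    have h1 : |reshapeRadius (h' i) (k' i)| ≤ ∑ i, |reshapeRadius (h' i) (k' i)| :=
      Finset.single_le_sum (f := fun i => |reshapeRadius (h' i) (k' i)|)
        (fun i _ => abs_nonneg _) (Finset.mem_univ i)
    exact (le_abs_self _).trans h1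
  set T : ℚ := ∑ i, (h' i 1 + k' i 1) with hT
  have hTle : ∀ i, h' i 1 + k' i 1 ≤ T := fun i =>
    Finset.single_le_sum (f := fun i => h' i 1 + k' i 1)
      (fun i _ => (add_pos (hh'pos i 1) (hk'pos i 1)).le) (Finset.mem_univ i)
  have hT0 : 0 ≤ T := Finset.sum_nonneg fun i _ => (add_pos (hh'pos i 1) (hk'pos i 1)).le
  set lane : ℚ := ρ + 2 * T + 2 * w + 1 with hlane
  have hlane0 : 0 ≤ lane := by rw [hlane]; linarith
  have R1 := reach_standard a h' a h' hh'pos hh'pos w hwpos hsa' lane (fun i i' => by
    have := hTle i; have := hTle i'; have := hk'pos i 1; have := hk'pos i' 1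
    rw [hlane]; linarith)
  have R3 := reach_standard a h' b k' hh'pos hk'pos w hwpos hsb' lane (fun i i' => by
    have := hTle i; have := hTle i'; have := hh'pos i 1; have := hh'pos i' 1
    rw [hlane]; linarith)
  have hvol' : ∀ i, ∏ j, k' i j = ∏ j, h' i j := by
    intro i
    have h1 := hvol i
    rw [Finset.prod_div_distrib, div_eq_one_iff_eq
      (Finset.prod_ne_zero_iff.mpr fun j _ => (hh i j).ne')] at h1
    simp only [hk', hh', Finset.prod_mul_distrib, h1]
  have R2 := reach_reshape_all a h' (fun i => ![0, ((i : ℕ) : ℚ) * lane, 0]) h' k' hh'pos hh'pos hk'pos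
    hvol' ρ w hwpos hρle (fun i i' hi' => by
      have hmax : ∀ i, max (h' i 1) (k' i 1) ≤ T := fun i =>
        max_le (by have := hTle i; have := hk'pos i 1; linarith)
          (by have := hTle i; have := hh'pos i 1; linarith)
      have := lane_sep lane (2 * w) hlane0 (fun _ => ρ) (fun i => max (h' i 1) (k' i 1))
        (fun i i' => by have := hmax i'; rw [hlane]; linarith) i i' (Ne.symm hi')
      show ((i' : ℕ) : ℚ) * lane + max (h' i' 1) (k' i' 1) < ((i : ℕ) : ℚ) * lane - ρ - 2 * w ∨
        ((i : ℕ) : ℚ) * lane + ρ + 2 * w < ((i' : ℕ) : ℚ) * lane - max (h' i' 1) (k' i' 1)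
      rcases this with h1 | h1
      · right; linarith
      · left; linarith)
  have Rtot := (R1.trans R2).trans R3.symm
  have Rtot' : Reach (fun i => box (a i) (h' i)) (fun _ => id) (boxPos a h' b k') := by
    refine Reach.congr_left (fun i x _ => ?_) Rtot
    funext j
    show (a i j : ℝ) + ((h' i j / h' i j : ℚ) : ℝ) * (x j - (a i j : ℝ)) = x j
    rw [div_self (hh'pos i j).ne']
    push_cast
    ring
  obtain ⟨L, hL, hfin⟩ := Rtot'
  refine ⟨L, hL, fun i x hx => ?_⟩
  rw [hfin i x hx]
  funext j
  show (b i j : ℝ) + ((k' i j / h' i j : ℚ) : ℝ) * (x j - (a i j : ℝ)) = _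
  have : k' i j / h' i j = k i j / h i j := by
    show (1 + δ) * k i j / ((1 + δ) * h i j) = k i j / h i j
    rw [mul_div_mul_left _ _ (by linarith : (1 + δ) ≠ 0)]
  rw [this]

end Crest.Agent.BoxFlow
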