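/-
S0170 team project, task T11 (bottom part, helper33): `plan_exists` from `reach_standard`.
-/
import Crest.Agent.BoxFlow.PlanBasic

set_option autoImplicit false
open Crest.AnalysisR.BoxFlow

namespace Crest.Agent.BoxFlow

/-- disjoint closed rational boxes are separated in some coordinate -/
theorem t11_exists_sep_of_disjoint {c c' r r' : Fin 3 → ℚ} (hr : ∀ j, 0 < r j) (hr' : ∀ j, 0 < r' j)
    (hd : Disjoint (box c r) (box c' r')) :
    ∃ e, c e + r e < c' e - r' e ∨ c' e + r' e < c e - r e := by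
  by_contra hcon
  push_neg at hcon
  have hx : (fun e => ((max (c e - r e) (c' e - r' e) : ℚ) : ℝ)) ∈ box c r := by
    intro e
    obtain ⟨h1, h2⟩ := hcon e
    have h3 : |max (c e - r e) (c' e - r' e) - c e| ≤ r e := by
      rw [abs_le]
      constructor
      · have := le_max_left (c e - r e) (c' e - r' e); linarith
      · have : max (c e - r e) (c' e - r' e) ≤ c e + r e := max_le (by linarith [hr e]) h1
        linarith
    have h4 : ((|max (c e - r e) (c' e - r' e) - c e| : ℚ) : ℝ) ≤ ((r e : ℚ) : ℝ) := by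
      exact_mod_cast h3
    simpa using h4
  have hx' : (fun e => ((max (c e - r e) (c' e - r' e) : ℚ) : ℝ)) ∈ box c' r' := by
    intro e
    obtain ⟨h1, h2⟩ := hcon e
    have h3 : |max (c e - r e) (c' e - r' e) - c' e| ≤ r' e := by
      rw [abs_le]
      constructor
      · have := le_max_right (c e - r e) (c' e - r' e); linarith
      · have : max (c e - r e) (c' e - r' e) ≤ c' e + r' e := max_le h2 (by linarith [hr' e])
        linarith
    have h4 : ((|max (c e - r e) (c' e - r' e) - c' e| : ℚ) : ℝ) ≤ ((r' e : ℚ) : ℝ) := by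
      exact_mod_cast h3
    simpa using h4
  exact Set.disjoint_left.1 hd hx hx'

/-- a finite family of positive rationals has a positive lower bound -/
theorem t11_exists_pos_le {ι : Type} [Finite ι] (γ : ι → ℚ) (h : ∀ p, 0 < γ p) :
    ∃ g : ℚ, 0 < g ∧ ∀ p, g ≤ γ p := by
  obtain ⟨M, hM⟩ := Finite.exists_le (fun p => (γ p)⁻¹)
  refine ⟨(max M 1)⁻¹, by positivity, fun p => ?_⟩
  have h1 : (γ p)⁻¹ ≤ max M 1 := (hM p).trans (le_max_left _ _)
  exact inv_le_of_inv_le₀ (h p) h1

/-- uniform gap of a finite family of pairwise disjoint boxes -/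
theorem t11_uniform_gap {n : ℕ} (a h : Fin n → Fin 3 → ℚ) (hh : ∀ i j, 0 < h i j)
    (ha : Pairwise fun i i' => Disjoint (box (a i) (h i)) (box (a i') (h i'))) :
    ∃ g : ℚ, 0 < g ∧ ∀ i i', i ≠ i' → ∃ e,
      a i e + h i e + g ≤ a i' e - h i' e ∨ a i' e + h i' e + g ≤ a i e - h i e := by
  have key : ∀ p : Fin n × Fin n, ∃ γ : ℚ, 0 < γ ∧ (p.1 ≠ p.2 → ∃ e,
      a p.1 e + h p.1 e + γ ≤ a p.2 e - h p.2 e ∨ a p.2 e + h p.2 e + γ ≤ a p.1 e - h p.1 e) := by
    rintro ⟨i, i'⟩
    by_cases hii : i = i'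
    · exact ⟨1, one_pos, fun hne => absurd hii hne⟩
    · obtain ⟨e, he | he⟩ := t11_exists_sep_of_disjoint (hh i) (hh i') (ha hii)
      · exact ⟨a i' e - h i' e - (a i e + h i e), by linarith, fun _ => ⟨e, Or.inl (by linarith)⟩⟩
      · exact ⟨a i e - h i e - (a i' e + h i' e), by linarith, fun _ => ⟨e, Or.inr (by linarith)⟩⟩
  choose γ hγpos hγ using key
  obtain ⟨g, hg, hgle⟩ := t11_exists_pos_le γ hγpos
  refine ⟨g, hg, fun i i' hii => ?_⟩
  obtain ⟨e, he | he⟩ := hγ (i, i') hii
  · exact ⟨e, Or.inl (by have := hgle (i, i'); simp only at he; linarith)⟩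
  · exact ⟨e, Or.inr (by have := hgle (i, i'); simp only at he; linarith)⟩

/-- separated boxes are disjoint -/
theorem t11_disjoint_of_sep {c c' r r' : Fin 3 → ℚ} {e : Fin 3}
    (hs : c e + r e < c' e - r' e ∨ c' e + r' e < c e - r e) :
    Disjoint (box c r) (box c' r') := by
  rw [Set.disjoint_left]
  intro x hx hx'
  have h1 := abs_le.1 (hx e)
  have h2 := abs_le.1 (hx' e)
  rcases hs with hs | hs
  · have : ((c e + r e : ℚ) : ℝ) < ((c' e - r' e : ℚ) : ℝ) := by exact_mod_cast hs
    push_cast at this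
    linarith [h1.2, h2.1]
  · have : ((c' e + r' e : ℚ) : ℝ) < ((c e - r e : ℚ) : ℝ) := by exact_mod_cast hs
    push_cast at this
    linarith [h1.1, h2.2]

/-- reshaping all boxes, one after the other, in the standard position -/
theorem t11_reshape_all {n : ℕ} (a h r r' : Fin n → Fin 3 → ℚ) (hh : ∀ i j, 0 < h i j)
    (hr : ∀ i j, 0 < r i j) (hr' : ∀ i j, 0 < r' i j) (hvol : ∀ i, ∏ j, r' i j = ∏ j, r i j)
    (ρ w R lane : ℚ) (hw : 0 < w) (hρ : ∀ i, reshapeRadius (r i) (r' i) ≤ ρ)
    (hR : ∀ i, r i 1 ≤ R) (hR' : ∀ i, r' i 1 ≤ R) (hlane : R + ρ + 2 * w < lane) (hl0 : 0 < lane) :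
    Reach (fun i => box (a i) (h i)) (boxPos a h (fun i => ![0, (i : ℕ) * lane, 0]) r)
      (boxPos a h (fun i => ![0, (i : ℕ) * lane, 0]) r') := by
  classical
  have main : ∀ S : Finset (Fin n),
      Reach (fun i => box (a i) (h i)) (boxPos a h (fun i => ![0, (i : ℕ) * lane, 0]) r)
        (boxPos a h (fun i => ![0, (i : ℕ) * lane, 0]) (fun i => if i ∈ S then r' i else r i)) := by
    intro S
    induction S using Finset.induction_on with
    | empty => simpa using Reach.refl _
    | insert i S hiS ih =>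
      refine ih.trans ?_
      have hupd : (fun i' => if i' ∈ insert i S then r' i' else r i')
          = Function.update (fun i' => if i' ∈ S then r' i' else r i') i (r' i) := by
        funext i'
        by_cases hi : i' = i
        · subst hi; simp
        · simp [Function.update_of_ne hi, Finset.mem_insert, hi]
      rw [hupd]
      have hri : (if i ∈ S then r' i else r i) = r i := by simp [hiS]
      refine reach_reshape a h _ _ hh ?_ i (r' i) (hr' i) ?_ ρ w hw ?_ ?_
      · intro i' j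
        by_cases hi : i' ∈ S
        · simpa [hi] using hr' i' j
        · simpa [hi] using hr i' j
      · rw [hri]; exact hvol i
      · rw [hri]; exact hρ i
      · intro i' hi'
        refine ⟨1, ?_⟩
        have hrS : (if i' ∈ S then r' i' else r i') 1 ≤ R := by
          by_cases hi : i' ∈ S
          · simpa [hi] using hR' i'
          · simpa [hi] using hR i'
        have hne : (i' : ℕ) ≠ (i : ℕ) := fun hc => hi' (Fin.ext hc)
        rcases lt_or_gt_of_ne hne with hlt | hgt
        · left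
          have h1 : ((i' : ℕ) : ℚ) + 1 ≤ ((i : ℕ) : ℚ) := by exact_mod_cast hlt
          have h2 : (((i' : ℕ) : ℚ) + 1) * lane ≤ ((i : ℕ) : ℚ) * lane :=
            mul_le_mul_of_nonneg_right h1 hl0.le
          simp only [Matrix.cons_val_one, Matrix.cons_val_zero]
          linarith
        · right
          have h1 : ((i : ℕ) : ℚ) + 1 ≤ ((i' : ℕ) : ℚ) := by exact_mod_cast hgt
          have h2 : (((i : ℕ) : ℚ) + 1) * lane ≤ ((i' : ℕ) : ℚ) * lane :=
            mul_le_mul_of_nonneg_right h1 hl0.le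
          simp only [Matrix.cons_val_one, Matrix.cons_val_zero]
          linarith
  simpa using main Finset.univ

/-- `plan_exists`, given `reach_standard` (with `SepAt` unfolded). -/
theorem t11_plan_exists_of
    (hstd : ∀ (n : ℕ) (a h c r : Fin n → Fin 3 → ℚ), (∀ i j, 0 < h i j) → (∀ i j, 0 < r i j) →
      ∀ (w : ℚ), 0 < w →
      (∀ i i', i ≠ i' → ∃ e, (c i e + r i e + 2 * w < c i' e - r i' e ∨
        c i' e + r i' e + 2 * w < c i e - r i e)) →
      ∀ (lane : ℚ), (∀ i i', r i 1 + r i' 1 + 2 * w < lane) →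
      Reach (fun i => box (a i) (h i)) (boxPos a h c r)
        (boxPos a h (fun i => ![0, (i : ℕ) * lane, 0]) r))
    (n : ℕ) (a b h k : Fin n → Fin 3 → ℚ)
    (hh : ∀ i j, 0 < h i j) (hk : ∀ i j, 0 < k i j)
    (ha : Pairwise fun i i' => Disjoint (box (a i) (h i)) (box (a i') (h i')))
    (hb : Pairwise fun i i' => Disjoint (box (b i) (k i)) (box (b i') (k i')))
    (hvol : ∀ i, ∏ j : Fin 3, k i j / h i j = 1) :
    ∃ h' : Fin n → Fin 3 → ℚ, (∀ i j, h i j < h' i j) ∧
      (Pairwise fun i i' => Disjoint (box (a i) (h' i)) (box (a i') (h' i'))) ∧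
      ∃ L : List (Move × Fin n), PlanOK (fun i => box (a i) (h' i)) (fun _ => id) L ∧
        ∀ i, ∀ x ∈ box (a i) (h' i), runPlan (fun _ => id) L i x =
          fun j => (b i j : ℝ) + ((k i j / h i j : ℚ) : ℝ) * (x j - (a i j : ℝ)) := by
  -- uniform gaps and sizes
  obtain ⟨g₁, hg₁, hgap₁⟩ := t11_uniform_gap a h hh ha
  obtain ⟨g₂, hg₂, hgap₂⟩ := t11_uniform_gap b k hk hb
  obtain ⟨M₁, hM₁⟩ := Finite.exists_le (fun p : Fin n × Fin 3 => h p.1 p.2)
  obtain ⟨M₂, hM₂⟩ := Finite.exists_le (fun p : Fin n × Fin 3 => k p.1 p.2)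
  set g : ℚ := min g₁ g₂ with hgdef
  have hg : 0 < g := lt_min hg₁ hg₂
  set M : ℚ := max (max M₁ M₂) 1 with hMdef
  have hM : 0 < M := lt_of_lt_of_le one_pos (le_max_right _ _)
  have hhM : ∀ i j, h i j ≤ M := fun i j =>
    (hM₁ (i, j)).trans ((le_max_left _ _).trans (le_max_left _ _))
  have hkM : ∀ i j, k i j ≤ M := fun i j =>
    (hM₂ (i, j)).trans ((le_max_right _ _).trans (le_max_left _ _))
  set δ : ℚ := g / (8 * M) with hδdef
  have hδ : 0 < δ := by positivity
  have hδM : δ * M = g / 8 := by rw [hδdef]; field_simp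
  set w : ℚ := g / 8 with hwdef
  have hw : 0 < w := by positivity
  set h' : Fin n → Fin 3 → ℚ := fun i j => (1 + δ) * h i j with hh'def
  set k' : Fin n → Fin 3 → ℚ := fun i j => (1 + δ) * k i j with hk'def
  have hh' : ∀ i j, 0 < h' i j := fun i j => mul_pos (by linarith) (hh i j)
  have hk' : ∀ i j, 0 < k' i j := fun i j => mul_pos (by linarith) (hk i j)
  have hg8 : g = 8 * w := by rw [hwdef]; ring
  have hδh : ∀ i j, δ * h i j ≤ w := fun i j => by
    rw [← hδM]; exact mul_le_mul_of_nonneg_left (hhM i j) hδ.le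
  have hδk : ∀ i j, δ * k i j ≤ w := fun i j => by
    rw [← hδM]; exact mul_le_mul_of_nonneg_left (hkM i j) hδ.le
  have hsep₁ : ∀ i i', i ≠ i' → ∃ e, (a i e + h' i e + 2 * w < a i' e - h' i' e ∨
      a i' e + h' i' e + 2 * w < a i e - h' i e) := by
    intro i i' hii
    obtain ⟨e, he⟩ := hgap₁ i i' hii
    have hgg : g ≤ g₁ := min_le_left _ _
    have e1 := hδh i e
    have e2 := hδh i' e
    refine ⟨e, ?_⟩
    simp only [hh'def]
    rcases he with he | he
    · left; linarith
    · right; linarith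
  have hsep₂ : ∀ i i', i ≠ i' → ∃ e, (b i e + k' i e + 2 * w < b i' e - k' i' e ∨
      b i' e + k' i' e + 2 * w < b i e - k' i e) := by
    intro i i' hii
    obtain ⟨e, he⟩ := hgap₂ i i' hii
    have hgg : g ≤ g₂ := min_le_right _ _
    have e1 := hδk i e
    have e2 := hδk i' e
    refine ⟨e, ?_⟩
    simp only [hk'def]
    rcases he with he | he
    · left; linarith
    · right; linarith
  -- lanes
  obtain ⟨ρ₀, hρ₀⟩ := Finite.exists_le (fun i : Fin n => reshapeRadius (h' i) (k' i))
  set ρ : ℚ := max ρ₀ 0 with hρdef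
  have hρ : ∀ i, reshapeRadius (h' i) (k' i) ≤ ρ := fun i => (hρ₀ i).trans (le_max_left _ _)
  have hρ0 : 0 ≤ ρ := le_max_right _ _
  set R : ℚ := (1 + δ) * M with hRdef
  have hRpos : 0 < R := mul_pos (by linarith) hM
  have hR₁ : ∀ i j, h' i j ≤ R := fun i j => mul_le_mul_of_nonneg_left (hhM i j) (by linarith)
  have hR₂ : ∀ i j, k' i j ≤ R := fun i j => mul_le_mul_of_nonneg_left (hkM i j) (by linarith)
  set lane : ℚ := 2 * R + ρ + 2 * w + 1 with hlanedef
  have hl0 : 0 < lane := by linarith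
  have hvol' : ∀ i, ∏ j, k' i j = ∏ j, h' i j := by
    intro i
    have h1 := hvol i
    rw [Finset.prod_div_distrib, div_eq_one_iff_eq
      (Finset.prod_ne_zero_iff.2 fun j _ => (hh i j).ne')] at h1
    simp only [hh'def, hk'def, Finset.prod_mul_distrib, h1]
  have A := hstd n a h' a h' hh' hh' w hw hsep₁ lane
    (fun i i' => by have := hR₁ i 1; have := hR₁ i' 1; linarith)
  have Bq := hstd n a h' b k' hh' hk' w hw hsep₂ lane
    (fun i i' => by have := hR₂ i 1; have := hR₂ i' 1; linarith)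
  have C := t11_reshape_all a h' h' k' hh' hh' hk' hvol' ρ w R lane hw hρ
    (fun i => hR₁ i 1) (fun i => hR₂ i 1) (by linarith) hl0
  obtain ⟨L, hL, hfin⟩ := A.trans (C.trans Bq.symm)
  have hid : boxPos a h' a h' = fun _ => id := by
    funext i x j
    simp only [boxPos, id]
    rw [div_self (hh' i j).ne']
    push_cast
    ring
  rw [hid] at hL hfin
  refine ⟨h', fun i j => ?_, fun i i' hii => ?_, L, hL, fun i x hx => ?_⟩
  · simp only [hh'def]; nlinarith [hh i j]
  · obtain ⟨e, he⟩ := hsep₁ i i' hii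
    refine t11_disjoint_of_sep (e := e) ?_
    rcases he with he | he
    · left; linarith
    · right; linarith
  · rw [hfin i x hx]
    funext j
    simp only [boxPos, hh'def, hk'def]
    rw [mul_div_mul_left _ _ (by linarith : (1 + δ) ≠ 0)]

end Crest.Agent.BoxFlow
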